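import Vale.Agent.P004Z.Du.Pair
import Vale.Agent.P004Z.Gl.Pet

/-! # P004Z, block G2: row EXH -/

set_option linter.all false

open Complex MeasureTheory Set
open scoped Real ComplexConjugate

noncomputable section

namespace Vale.Agent.P004Z

namespace Du.Pe

variable {N : ℕ} [NeZero N] {δ : ℕ} {τ : ℂ} {a a' : ℤ → ZMod (2 * N) → ℂ} {x y : Cf N}
  {c c' : PP N}

theorem nh_smul (k : ℂ) (x : Cf N) (r) (τ : ℂ) : nh (conj k • x) r τ = k * nh x r τ := by
  simp only [nh, Gl.fn_smul, map_mul, conj_conj, mul_left_comm _ k, integral_const_mul, mul_neg]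

theorem nh_add (h : IsS δ x) (h' : IsS δ y) (r) (p : 0 < τ.im) :
    nh (x + y) r τ = nh x r τ + nh y r τ := by
  simp only [nh_eq, J]
  rw [← neg_add, ← integral_add (K_int (fn_dec h r) (by norm_num) p)
    (K_int (fn_dec h' r) (by norm_num) p)]
  refine congrArg _ (setIntegral_congr_fun measurableSet_Ioi fun σ s => ?_)
  simp only [K]
  rw [Gl.fn_add h h' _ (by rw [im2]; linarith [show 0 < σ from s]), map_add, mul_add]

theorem harm_smul (F : FIN) (o : Ok N δ) (k : ℂ) (h : Harm δ a x c) :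
    Harm δ (k • a) (conj k • x) (k • c) := by
  have e : ∀ r τ, hf (k • a) (conj k • x) r τ = k * hf a x r τ := fun r τ => by
    simp only [hf, nh_smul, Pi.smul_apply, smul_eq_mul, mul_assoc, tsum_mul_left, mul_add]
  refine ⟨Gl.isS_smul F o _ h.s, fun n r b => h.sup n r (right_ne_zero_of_mul b),
    fun r => by simp [h.zero], fun n r b => by simp [h.pp n r b], fun r τ p => by
      simpa [mul_assoc] using (h.sum r τ p).mul_left ‖k‖, fun τ p r => ?_⟩
  simp only [e, h.law τ p, mul_left_comm _ k, ← Finset.mul_sum]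

theorem harm_add (F : FIN) (o : Ok N δ) (h : Harm δ a x c) (h' : Harm δ a' y c') :
    Harm δ (a + a') (x + y) (c + c') := by
  have e : ∀ r τ, 0 < τ.im → hf (a + a') (x + y) r τ = hf a x r τ + hf a' y r τ := fun r τ p => by
    simp only [hf, nh_add h.s h'.s r p, Pi.add_apply, add_mul,
      (h.sum r τ p).of_norm.tsum_add (h'.sum r τ p).of_norm]
    ring
  refine ⟨by simpa using Gl.isS_comb F o 1 h.s h'.s, fun n r b => ?_,
    fun r => by simp [h.zero, h'.zero], fun n r b => by simp [h.pp n r b, h'.pp n r b],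
    fun r τ p => ((h.sum r τ p).add (h'.sum r τ p)).of_nonneg_of_le (fun _ => norm_nonneg _)
      fun n => by simpa only [Pi.add_apply, add_mul] using norm_add_le _ _, fun τ p r => ?_⟩
  · by_cases d : a n r = 0
    · exact h'.sup n r (by simpa [d] using b)
    · exact h.sup n r d
  · simp only [e _ _ (im_S p), e _ _ p, h.law τ p, h'.law τ p, mul_add, Finset.sum_add_distrib]

theorem harm_zero : Harm δ 0 (0 : Cf N) 0 :=
  ⟨⟨by simp, by simp, by simp [summable_zero], by simp [fn]⟩, by simp, by simp, by simp,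
    by simp [summable_zero], by simp [Gl.hf_zero]⟩

end Du.Pe

open Du.Pe Gl in
theorem exh (F : FIN) (P : PETS) (S : SERRE) (H : HARM) (Q : PAIR) : EXH := by
  intro N _ δ o c h
  let U : Submodule ℂ (PP N) :=
    { carrier := {c | ∃ a x, Harm δ a x c}
      zero_mem' := ⟨_, _, harm_zero⟩
      add_mem' := fun ⟨_, _, p⟩ ⟨_, _, q⟩ => ⟨_, _, harm_add F o p q⟩
      smul_mem' := fun k _ ⟨_, _, p⟩ => ⟨_, _, harm_smul F o k p⟩ }
  by_contra n
  obtain ⟨f, f1, f2⟩ := U.exists_le_ker_of_notMem n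
  have e : ∀ c, pr (fun n r => f (Finsupp.single (n, r) 1)) c = f c := fun c => by
    conv_rhs => rw [← c.sum_single, Finsupp.sum, map_sum]
    exact Finset.sum_congr rfl fun i _ => (map_smul f (c i) _).symm.trans (by simp)
  have s := isS_sy S Q o fun c ⟨a, p⟩ => (e c).trans (f2 ⟨_, _, p⟩)
  obtain ⟨a, d, p⟩ := H N δ o _ s
  have q := Q N δ o _ _ _ p
  have z := (P N δ o _ s).2.2.2 (by rw [← q.2 _ s, pr_sy q.1, e]; exact f2 ⟨_, _, p⟩)
  exact f1 (by rw [← e, ← pr_sy h, z]; simp [pr])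

end Vale.Agent.P004Z
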