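import Vale.Agent.P004Z.Du.St

/-! # P004Z, block G2: `ee`, `hw`, the matrices `sm` and `tm` -/

set_option linter.all false

open Complex
open scoped Real ComplexConjugate NumberTheorySymbols

noncomputable section

namespace Vale.Agent.P004Z.Du

theorem ee_add (x y : ℂ) : ee (x + y) = ee x * ee y := by rw [ee, ee, ee, mul_add, exp_add]

@[simp] theorem ee_zero : ee 0 = 1 := by simp [ee]

theorem ee_ne (x : ℂ) : ee x ≠ 0 := exp_ne_zero _

theorem ee_int (n : ℤ) : ee n = 1 := by rw [ee, mul_comm, exp_int_mul_two_pi_mul_I]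

theorem ee_congr {x y : ℂ} (n : ℤ) (h : x = y + n) : ee x = ee y := by
  rw [h, ee_add, ee_int, mul_one]

theorem ee_neg (x : ℂ) : ee (-x) = (ee x)⁻¹ := by rw [ee, ee, mul_neg, exp_neg]

theorem ee_zpow (n : ℤ) (x : ℂ) : ee (n * x) = ee x ^ n := by
  rw [ee, ee, ← exp_int_mul, mul_left_comm]

theorem ee_pow (n : ℕ) (x : ℂ) : ee (n * x) = ee x ^ n := by simpa using ee_zpow n x

theorem conj_ee (x : ℂ) : conj (ee x) = ee (-conj x) := by
  rw [ee, ee, ← exp_conj]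
  simp [map_ofNat]

theorem norm_ee (x : ℂ) : ‖ee x‖ = Real.exp (-(2 * π * x.im)) := by
  rw [ee, norm_exp]
  simp

theorem ee_div_eq_one {a : ℤ} {M : ℕ} (hM : M ≠ 0) : ee (a / M) = 1 ↔ (M : ℤ) ∣ a := by
  have : (M : ℂ) ≠ 0 := Nat.cast_ne_zero.2 hM
  rw [ee, exp_eq_one_iff]
  refine exists_congr fun n => ?_
  rw [mul_comm, mul_left_inj' two_pi_I_ne_zero, div_eq_iff this, mul_comm]
  norm_cast

theorem std_int {M : ℕ} [NeZero M] (a : ℤ) : ZMod.stdAddChar (a : ZMod M) = ee (a / M) := by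
  rw [ZMod.stdAddChar_coe, ee, mul_div_assoc]

theorem hasDerivAt_ee (x : ℂ) : HasDerivAt ee (2 * π * I * ee x) x :=
  ((hasDerivAt_id x).const_mul (2 * π * I)).cexp.congr_deriv (by rw [mul_one, mul_comm]; rfl)

section
variable {τ : ℂ} (h : 0 < τ.im)
include h

theorem ne0 : τ ≠ 0 := fun e => by simp [e] at h

theorem im_S : 0 < (-1 / τ).im := by
  have := normSq_pos.2 (ne0 h)
  simp only [neg_div, one_div, neg_im, inv_im, neg_neg]
  positivity

theorem im_T : 0 < (τ + 1).im := by simpa using h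

theorem S_S : -1 / (-1 / τ) = τ := by field_simp

theorem slit : τ / I ∈ slitPlane := Or.inl (by simpa using h)

theorem hw_pos : 0 < (hw τ).re := by
  rw [hw, one_div, cpow_inv_two_re]
  have : 0 < (τ / I).re := by simpa using h
  positivity

theorem hw_ne : hw τ ≠ 0 := fun e => by simpa [e] using hw_pos h

theorem hw_diff : DifferentiableAt ℂ hw τ :=
  (differentiableAt_id.div_const I).cpow_const (slit h)

omit h in
theorem hw_sq : hw τ ^ 2 = τ / I := by
  rw [hw, one_div]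
  exact cpow_ofNat_inv_pow _ 2

theorem hw_mul : hw τ * hw (-1 / τ) = 1 := by
  have h1 : hw (-1 / τ) ^ 2 = (hw τ)⁻¹ ^ 2 := by
    have := ne0 h
    rw [inv_pow, hw_sq, hw_sq]
    field_simp
    simp
  have h2 : 0 < ((hw τ)⁻¹).re := by
    rw [inv_re]
    exact div_pos (hw_pos h) (normSq_pos.2 (hw_ne h))
  rw [(sq_eq_sq_iff_eq_or_eq_neg.1 h1).resolve_right fun e => ?_, mul_inv_cancel₀ (hw_ne h)]
  have := hw_pos (im_S h)
  rw [e, neg_re] at this
  linarith

omit h in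
theorem norm_hw : ‖hw τ‖ ^ 2 = ‖τ‖ := by rw [← norm_pow, hw_sq, norm_div, norm_I, div_one]

omit h in
theorem hw_conj : hw τ * conj (hw τ) = ‖τ‖ := by
  rw [mul_conj, normSq_eq_norm_sq, norm_hw]

end

variable {N : ℕ} [NeZero N] {δ : ℕ}

theorem N_ne : (N : ℂ) ≠ 0 := Nat.cast_ne_zero.2 (NeZero.ne N)

theorem cop4 (h : Ok N δ) : δ.Coprime (4 * N) :=
  Nat.Coprime.mul_right (Nat.Coprime.pow_right 2 (Nat.coprime_two_right.2 h.odd)) h.cop.symm

theorem cop2 (h : Ok N δ) : δ.Coprime (2 * N) :=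
  (cop4 h).coprime_dvd_right ⟨2, by ring⟩

theorem eps_sq (h : Ok N δ) : (eps δ : ℂ) * eps δ = 1 := by
  rw [eps, ← Int.cast_mul, ← sq, jacobiSym.sq_one (by simp), Int.cast_one]

/-- what is used of the constant -/
structure Kp (N : ℕ) (δ : ℕ) : Prop where
  ok : Ok N δ
  sq : 2 * N * kap N δ ^ 2 = eps δ
  nm : 2 * N * kap N δ * conj (kap N δ) = 1

theorem kp (P : PHI) (h : Ok N δ) : Kp N δ := by
  obtain ⟨-, -, -, -, -, -, -, h1, h2⟩ := P N δ h
  exact ⟨h, h1, by rw [mul_assoc, mul_conj]; exact_mod_cast h2⟩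

theorem sm_comm (r s : ZMod (2 * N)) : sm N δ r s = sm N δ s r := by rw [sm, sm, mul_right_comm]

theorem sm_neg (r s : ZMod (2 * N)) : sm N δ (-r) s = sm N δ r (-s) := by simp [sm]

theorem conj_std {M : ℕ} [NeZero M] (a : ZMod M) :
    conj (ZMod.stdAddChar a) = ZMod.stdAddChar (-a) := by
  rw [AddChar.map_neg_eq_conj]

theorem norm_tm (r : ZMod (2 * N)) : ‖tm N δ r‖ = 1 := AddChar.norm_apply _ _

theorem tm_conj (r : ZMod (2 * N)) : tm N δ r * conj (tm N δ r) = 1 := by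
  rw [mul_conj, normSq_eq_norm_sq, norm_tm]
  simp

theorem tm_iff (h : Ok N δ) (n : ℤ) (r : ZMod (2 * N)) :
    ee (n / (4 * N)) = tm N δ r ↔ In N δ n r := by
  have u := ZMod.coe_mul_inv_eq_one δ (cop4 h)
  have e := std_int (M := 4 * N) n
  rw [Nat.cast_mul, Nat.cast_ofNat] at e
  rw [← e, tm, ZMod.injective_stdAddChar.eq_iff, In, show (4 * N : ℤ) = (4 * N : ℕ) by simp,
    ← ZMod.intCast_zmod_eq_zero_iff_dvd]
  simp only [Int.cast_add, Int.cast_pow, Int.cast_mul, Int.cast_natCast]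
  exact ⟨fun k => by linear_combination δ * k - ((r.val : ZMod (4 * N))) ^ 2 * u,
    fun k => by linear_combination (δ : ZMod (4 * N))⁻¹ * k - n * u⟩

theorem tm_iff' (h : Ok N δ) (n : ℤ) (r : ZMod (2 * N)) :
    ee (n / (4 * N)) = conj (tm N δ r) ↔ In N δ (-n) r := by
  rw [← tm_iff h, ← (starRingEnd ℂ).injective.eq_iff, conj_conj, conj_ee]
  simp [neg_div, map_ofNat]

theorem In.dvd (h : Ok N δ) {n m : ℤ} {r : ZMod (2 * N)} (h1 : In N δ n r) (h2 : In N δ m r) :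
    (4 * N : ℤ) ∣ n - m := by
  have := (dvd_sub h1 h2)
  rw [add_sub_add_left_eq_sub, ← mul_sub] at this
  exact IsCoprime.dvd_of_dvd_mul_left (by exact_mod_cast (Nat.isCoprime_iff_coprime.2 (cop4 h)).symm)
    this

theorem In.add {n m : ℤ} {r : ZMod (2 * N)} (h1 : In N δ n r) (h2 : (4 * N : ℤ) ∣ m) :
    In N δ (n + m) r := by
  rw [In, mul_add, ← add_assoc]
  exact dvd_add h1 (h2.mul_left _)

theorem in_int (n b : ℤ) : In N δ n (b : ZMod (2 * N)) ↔ (4 * N : ℤ) ∣ b ^ 2 + δ * n := by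
  obtain ⟨c, hc⟩ := (ZMod.intCast_eq_intCast_iff_dvd_sub b (b : ZMod (2 * N)).val (2 * N)).1
    (by rw [Int.cast_natCast, ZMod.natCast_zmod_val])
  rw [In, sub_eq_iff_eq_add'.1 hc, show (b + (2 * N : ℕ) * c) ^ 2 + δ * n =
    b ^ 2 + δ * n + 4 * N * (b * c + N * c ^ 2) by push_cast; ring, dvd_add_left (dvd_mul_right _ _)]

theorem in_neg (n : ℤ) (r : ZMod (2 * N)) : In N δ n (-r) ↔ In N δ n r := by
  obtain ⟨b, rfl⟩ := ZMod.intCast_surjective r
  rw [← Int.cast_neg, in_int, in_int, neg_sq]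

namespace Kp

variable (h : Kp N δ)
include h

theorem conj_kap : conj (kap N δ) = eps δ * kap N δ := by
  linear_combination -conj (kap N δ) * eps_sq h.ok - eps δ * conj (kap N δ) * h.sq +
    eps δ * kap N δ * h.nm

theorem conj_sm (r s : ZMod (2 * N)) : conj (sm N δ r s) = eps δ * sm N δ r (-s) := by
  simp [sm, h.conj_kap, conj_std, mul_assoc]

theorem sum_sm (r t : ZMod (2 * N)) :
    ∑ s, sm N δ r s * sm N δ s t = if t = -r then (eps δ : ℂ) else 0 := by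
  have u := ZMod.coe_mul_inv_eq_one δ (cop2 h.ok)
  have e : ∀ s, sm N δ r s * sm N δ s t =
      kap N δ ^ 2 * ZMod.stdAddChar (s * -((δ : ZMod (2 * N))⁻¹ * (r + t))) := fun s => by
    rw [sm, sm, mul_mul_mul_comm, ← AddChar.map_add_eq_mul, pow_two]
    congr 2
    ring
  simp only [e, ← Finset.mul_sum, AddChar.sum_mulShift _ (ZMod.isPrimitive_stdAddChar _)]
  have : -((δ : ZMod (2 * N))⁻¹ * (r + t)) = 0 ↔ t = -r :=
    ⟨fun k => by linear_combination -δ * k - (r + t) * u, fun k => by simp [k]⟩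
  simp only [this]
  split_ifs
  · rw [← h.sq]
    simp [mul_comm]
  · simp

theorem sm2 (X : ZMod (2 * N) → ℂ) (r : ZMod (2 * N)) :
    ∑ s, sm N δ r s * ∑ t, sm N δ s t * X t = eps δ * X (-r) := by
  simp only [Finset.mul_sum, ← mul_assoc]
  rw [Finset.sum_comm]
  simp [← Finset.sum_mul, h.sum_sm]

/-- on symmetric vectors `conj sm` is `sm` -/
theorem cs (X : ZMod (2 * N) → ℂ) (r : ZMod (2 * N)) :
    ∑ s, conj (sm N δ r s) * X s = eps δ * ∑ s, sm N δ (-r) s * X s := by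
  simp only [h.conj_sm, sm_neg, Finset.mul_sum, mul_assoc]

theorem smc (X : ZMod (2 * N) → ℂ) (r : ZMod (2 * N)) :
    ∑ s, conj (sm N δ r s) * ∑ t, sm N δ s t * X t = X r := by
  rw [h.cs, h.sm2, neg_neg, ← mul_assoc, eps_sq h.ok, one_mul]

theorem csm (X : ZMod (2 * N) → ℂ) (r : ZMod (2 * N)) :
    ∑ s, sm N δ r s * ∑ t, conj (sm N δ s t) * X t = X r := by
  simpa using congrArg conj (h.smc (fun t => conj (X t)) r)

theorem cc (X : ZMod (2 * N) → ℂ) (r : ZMod (2 * N)) :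
    ∑ s, conj (sm N δ r s) * ∑ t, conj (sm N δ s t) * X t = eps δ * X (-r) := by
  simpa using congrArg conj (h.sm2 (fun t => conj (X t)) r)

omit h in
theorem adj (A : ZMod (2 * N) → ZMod (2 * N) → ℂ) (hA : ∀ r s, A r s = A s r)
    (X Y : ZMod (2 * N) → ℂ) : ∑ r, (∑ s, A r s * X s) * Y r = ∑ s, X s * ∑ r, A s r * Y r := by
  simp only [Finset.sum_mul, Finset.mul_sum]
  rw [Finset.sum_comm]
  exact Finset.sum_congr rfl fun s _ => Finset.sum_congr rfl fun r _ => by rw [hA]; ring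

theorem pair (X Y : ZMod (2 * N) → ℂ) :
    ∑ r, (∑ s, sm N δ r s * X s) * ∑ t, conj (sm N δ r t) * Y t = ∑ r, X r * Y r := by
  simp only [adj _ sm_comm, h.csm]

/-- symmetry from the law -/
theorem sym {k : ℕ} {F : ZMod (2 * N) → ℂ → ℂ} (hF : Md δ k F) {τ : ℂ} (hτ : 0 < τ.im) (r) :
    F (-r) τ = eps δ * F r τ := by
  have e := hF.S _ (im_S hτ) (-r)
  simp only [S_S hτ, hF.S τ hτ, mul_left_comm _ (τ ^ (2 * k) * hw τ), ← Finset.mul_sum, h.cc,
    neg_neg] at e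
  have : (-1 / τ) ^ (2 * k) * τ ^ (2 * k) = 1 := by
    rw [← mul_pow, div_mul_cancel₀ _ (ne0 hτ), pow_mul, neg_one_sq, one_pow]
  rw [e]
  linear_combination (eps δ * F r τ) * (this * (hw τ * hw (-1 / τ)) + hw_mul hτ)

end Kp

end Vale.Agent.P004Z.Du
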