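import Vale.Agent.P004Z.Du.HarmB
import Vale.Agent.P004Z.Du.Bas

/-! # P004Z, block G2, row HARM: every cusp form is the shadow of a harmonic form -/

set_option linter.all false

open UpperHalfPlane hiding I
open Complex Matrix MeasureTheory
open scoped MatrixGroups Real Manifold Topology ComplexConjugate

noncomputable section

namespace Vale.Agent.P004Z

namespace Du.Harm

/-! ### the lowering operator -/

theorem Lo_comp {f φ : ℂ → ℂ} {z d : ℂ} (hf : DifferentiableAt ℝ f (φ z)) (hφ : HasDerivAt φ d z) :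
    Lo (fun w => f (φ w)) z = conj d * Lo f (φ z) := by
  have h := (hf.hasFDerivAt.comp z (hφ.hasFDerivAt.restrictScalars ℝ)).fderiv
  have e : ∀ a b : ℝ, fderiv ℝ f (φ z) (a + b * I) =
      a * fderiv ℝ f (φ z) 1 + b * fderiv ℝ f (φ z) I := fun a b => by
    rw [show (a + b * I : ℂ) = a • (1 : ℂ) + b • I by simp, map_add, map_smul, map_smul]
    simp
  have e1 : I * d = (-d.im : ℝ) + d.re * I := by
    conv_lhs => rw [← re_add_im d]
    push_cast
    linear_combination d.im * I_mul_I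
  have e2 : conj d = d.re - d.im * I := Complex.ext (by simp) (by simp)
  rw [Lo, Lo, show (fun w => f (φ w)) = f ∘ φ from rfl, h]
  simp only [ContinuousLinearMap.comp_apply, ContinuousLinearMap.coe_restrictScalars',
    ContinuousLinearMap.toSpanSingleton_apply, smul_eq_mul, one_mul]
  rw [e1, e, e2]
  nth_rewrite 3 [← re_add_im d]
  rw [e]
  push_cast
  linear_combination (-d.im * fderiv ℝ f (φ z) 1) * I_mul_I

theorem Lo_mul {a f : ℂ → ℂ} {z : ℂ} (ha : DifferentiableAt ℂ a z) (hf : DifferentiableAt ℝ f z) :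
    Lo (fun w => a w * f w) z = a z * Lo f z := by
  have h := (differentiableAt_complex_iff_differentiableAt_real.1 ha)
  rw [Lo, Lo, fderiv_fun_mul h.1 hf]
  simp only [ContinuousLinearMap.add_apply, ContinuousLinearMap.smul_apply, h.2, smul_eq_mul]
  ring

theorem Lo_sum {ι : Type} [Fintype ι] {f : ι → ℂ → ℂ} {z : ℂ} (c : ι → ℂ)
    (hf : ∀ i, DifferentiableAt ℝ (f i) z) :
    Lo (fun w => ∑ i, c i * f i w) z = ∑ i, c i * Lo (f i) z := by
  rw [Lo, fderiv_fun_sum fun i _ => (hf i).const_mul (c i)]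
  simp only [ContinuousLinearMap.sum_apply, Finset.mul_sum, ← Finset.sum_sub_distrib]
  exact Finset.sum_congr rfl fun i _ => Lo_mul (differentiableAt_const _) (hf i)

theorem diff_of_Lo {f g : ℂ → ℂ} {z : ℂ} (hf : DifferentiableAt ℝ f z)
    (hg : DifferentiableAt ℝ g z) (h : Lo f z = Lo g z) :
    DifferentiableAt ℂ (fun w => f w - g w) z := by
  refine differentiableAt_complex_iff_differentiableAt_real.2 ⟨hf.sub hg, ?_⟩
  rw [fderiv_fun_sub hf hg]
  simp only [Lo] at h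
  simp only [ContinuousLinearMap.sub_apply, smul_eq_mul]
  linear_combination h

/-! ### the eighth root of unity -/

/-- `e(1/8)` -/
def c8 : ℂ := (1 + I) / (√2 : ℝ)

theorem s2 : ((√2 : ℝ) : ℂ) ^ 2 = 2 := by
  rw [← ofReal_pow, Real.sq_sqrt two_pos.le, ofReal_ofNat]

theorem s2_ne : ((√2 : ℝ) : ℂ) ≠ 0 := fun e => by simpa [e] using s2

theorem c8_sq : c8 ^ 2 = I := by
  rw [c8, div_pow, s2]
  linear_combination I_sq / 2

theorem c8_conj : c8 * conj c8 = 1 := by
  rw [c8, map_div₀, conj_ofReal, div_mul_div_comm, ← pow_two, s2, map_add, map_one, conj_I]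
  linear_combination -I_sq / 2

theorem rt_eq (τ : ℍ) : W.rt τ = c8 * hw τ := by
  refine (W.sq_eq ?_ ?_ (W.rt_pos τ).1).symm
  · rw [mul_pow, c8_sq, hw_sq, W.rt_sq, mul_div_cancel₀ _ I_ne_zero]
  · have h1 := hw_pos τ.im_pos
    have h2 := congrArg Complex.re (hw_sq (τ := τ))
    have h3 := τ.im_pos
    rw [pow_two, mul_re] at h2
    simp only [div_I, neg_re, mul_re, Complex.I_re, Complex.I_im, coe_re, coe_im] at h2
    rw [c8, div_mul_eq_mul_div, div_ofReal_re]
    refine div_nonneg ?_ (Real.sqrt_nonneg _)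
    simp only [mul_re, add_re, add_im, one_re, one_im, Complex.I_re, Complex.I_im]
    nlinarith

variable {N : ℕ} [NeZero N] {δ : ℕ} {x : Cf N}

/-- the inverse of `δ` modulo `4 N` -/
def iv (N δ : ℕ) : ℕ := ((δ : ZMod (4 * N))⁻¹).val

theorem iv_mod (h : Ok N δ) : δ * iv N δ ≡ 1 [MOD 4 * N] := by
  rw [← ZMod.natCast_eq_natCast_iff, Nat.cast_mul, iv, ZMod.natCast_zmod_val, Nat.cast_one]
  exact ZMod.coe_mul_inv_eq_one δ (cop4 h)

theorem iv_cop (h : Ok N δ) : (iv N δ).Coprime (4 * N) :=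
  Nat.coprime_of_mul_modEq_one δ (mul_comm δ _ ▸ iv_mod h)

theorem iv_cop2 (h : Ok N δ) : IsCoprime (iv N δ : ℤ) (2 * N) := by
  have := Nat.isCoprime_iff_coprime.2 ((iv_cop h).coprime_dvd_right (n := 2 * N) ⟨2, by ring⟩)
  exact_mod_cast this

theorem ex_sg (h : Ok N δ) : ∃ σ, W.Sg N (iv N δ) σ := by
  obtain ⟨σ, hσ⟩ := W.ex_sig (mul_ne_zero four_ne_zero (NeZero.ne N)) (iv_cop h)
  exact ⟨σ, fun a => by simpa using hσ a⟩

theorem conj_tm (r : ZMod (2 * N)) : conj (tm N δ r) = W.eQ N (iv N δ) r := by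
  have e := std_int (M := 4 * N) (iv N δ * r.val ^ 2)
  rw [tm, conj_std, neg_neg]
  push_cast at e
  rw [iv, ZMod.natCast_zmod_val] at e
  exact e

theorem sm_eq (h : Ok N δ) (r s : ZMod (2 * N)) :
    sm N δ r s = kap N δ * W.eB N (iv N δ) r s := by
  have e := std_int (M := 2 * N) (-(iv N δ * r.val * s.val))
  have i : (δ : ZMod (2 * N))⁻¹ = iv N δ := ZMod.inv_eq_of_mul_eq_one _ _ _ (by
    rw [← Nat.cast_mul, ← Nat.cast_one (R := ZMod (2 * N)), ZMod.natCast_eq_natCast_iff]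
    exact (iv_mod h).of_dvd ⟨2, by ring⟩)
  push_cast at e
  rw [ZMod.natCast_zmod_val, ZMod.natCast_zmod_val, neg_div] at e
  rw [sm, i, e]
  rfl

theorem fn_T (h : Ok N δ) (hx : IsS δ x) (r : ZMod (2 * N)) (τ : ℂ) :
    fn x r (τ + 1) = tm N δ r * fn x r τ := by
  rw [fn, fn, ← tsum_mul_left]
  refine tsum_congr fun n => ?_
  by_cases k : x n r = 0
  · simp [k]
  · rw [← (tm_iff h n r).2 (hx.sup n r k), mul_left_comm, ← ee_add]
    congr 2
    push_cast
    ring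

theorem fn_sym (h : ∀ n r, x n (-r) = eps δ * x n r) (r : ZMod (2 * N)) (τ : ℂ) :
    fn x (-r) τ = eps δ * fn x r τ := by
  simp only [fn, h, mul_assoc, tsum_mul_left]

theorem sum_neg (f : ZMod (2 * N) → ℂ) : ∑ s, f (-s) = ∑ s, f s := Equiv.sum_comp (Equiv.neg _) f

theorem cs_sym (K : Kp N δ) {X : ZMod (2 * N) → ℂ} (h : ∀ r, X (-r) = eps δ * X r)
    (r : ZMod (2 * N)) : ∑ s, conj (sm N δ r s) * X s = ∑ s, sm N δ r s * X s := by
  rw [K.cs, ← sum_neg]
  simp only [sm_neg, neg_neg, h, mul_left_comm _ (eps δ : ℂ), ← Finset.mul_sum]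
  rw [← mul_assoc, eps_sq K.ok, one_mul]

theorem coe_S' (τ : ℍ) : ((ModularGroup.S • τ : ℍ) : ℂ) = -1 / τ := by
  rw [W.coe_S, neg_div, one_div]

/-- a non zero cusp form forces the constant -/
theorem const (K : Kp N δ) (hx : IsS δ x) (h : ∀ n r, x n (-r) = eps δ * x n r) {τ₀ : ℍ}
    {r₀ : ZMod (2 * N)} (h0 : fn x r₀ τ₀ ≠ 0) (τ : ℍ) (X : ZMod (2 * N) → ℂ) (r : ZMod (2 * N)) :
    (W.rt τ • W.mS N (iv N δ) *ᵥ X) r = hw τ * ∑ s, sm N δ r s * X s := by
  have k := W.rigid (N := N) (u := -(iv N δ)) (k := 3) (F := fun τ r => fn x r τ)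
    (κ := eps δ * kap N δ * c8) (fun τ r => by
      rw [W.coe_T, fn_T K.ok hx, ← W.conj_eQ, ← conj_tm, conj_conj]) (fun τ r => by
      have e : ∑ s, W.eB N (-(iv N δ)) r s * fn x s τ =
          eps δ * ∑ s, W.eB N (iv N δ) r s * fn x s τ := by
        rw [← sum_neg]
        simp only [W.eB_neg, neg_neg, fn_sym h, mul_left_comm _ (eps δ : ℂ), ← Finset.mul_sum]
      have a : (τ : ℂ) ^ 2 = W.rt τ ^ 3 * (c8 * hw τ) := by
        rw [← rt_eq, ← W.rt_sq]; ring
      have b := hw_ne τ.im_pos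
      rw [coe_S', hx.law _ τ.im_pos, e, div_mul_eq_mul_div, div_eq_iff b, a]
      simp only [sm_eq K.ok, mul_assoc, ← Finset.mul_sum, zpow_ofNat]
      linear_combination (-(kap N δ * c8 * W.rt τ ^ 3 * hw τ *
        ∑ s, W.eB N (iv N δ) r s * fn x s τ)) * eps_sq K.ok) τ₀ r₀
  have k1 := congrArg conj ((mul_left_eq_self₀.1 k).resolve_right h0)
  rw [map_mul, map_mul, map_mul, W.conj_gs, neg_neg, K.conj_kap, map_intCast, map_one] at k1
  have k2 : (W.gs N (iv N δ))⁻¹ = kap N δ * conj c8 := inv_eq_of_mul_eq_one_left (by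
    linear_combination k1 - kap N δ * conj c8 * W.gs N (iv N δ) * eps_sq K.ok)
  simp only [W.mS, smul_mulVec, Pi.smul_apply, smul_eq_mul, k2, rt_eq, sm_eq K.ok, mul_assoc,
    ← Finset.mul_sum, mulVec, dotProduct, of_apply]
  linear_combination (hw τ * kap N δ * ∑ s, W.eB N (iv N δ) r s * X s) * c8_conj

/-- the period function is holomorphic -/
theorem per_hol (K : Kp N δ) (hx : IsS δ x) (h : ∀ n r, x n (-r) = eps δ * x n r)
    (h1 : ∀ r, ContDiffOn ℝ 1 (nh x r) {τ | 0 < τ.im})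
    (h2 : ∀ r (τ : ℂ), 0 < τ.im → Lo (nh x r) τ = (τ.im ^ (-(1 / 2) : ℝ) : ℝ) * conj (fn x r τ))
    (r : ZMod (2 * N)) {z : ℂ} (hz : 0 < z.im) :
    DifferentiableAt ℂ (fun w => nh x r (-1 / w) - hw w * ∑ s, sm N δ r s * nh x s w) z := by
  have d : ∀ r (w : ℂ), 0 < w.im → DifferentiableAt ℝ (nh x r) w := fun r w k =>
    ((h1 r).differentiableOn one_ne_zero w k).differentiableAt
      ((isOpen_lt continuous_const Complex.continuous_im).mem_nhds k)
  have z0 := ne0 hz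
  have φ : HasDerivAt (fun w : ℂ => -1 / w) (1 / z ^ 2) z :=
    ((hasDerivAt_const z (-1 : ℂ)).fun_div (hasDerivAt_id z) z0).congr_deriv (by simp)
  have d2 : DifferentiableAt ℝ (fun w => ∑ s, sm N δ r s * nh x s w) z :=
    DifferentiableAt.fun_sum fun s _ => (d s z hz).const_mul _
  refine diff_of_Lo ((d r _ (im_S hz)).comp z (φ.differentiableAt.restrictScalars ℝ))
    (((hw_diff hz).restrictScalars ℝ).mul d2) ?_
  rw [Lo_comp (d r _ (im_S hz)) φ, Lo_mul (hw_diff hz) d2, Lo_sum _ fun s => d s z hz,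
    h2 _ _ (im_S hz), hx.law z hz]
  have e : (-1 / z).im ^ (-(1 / 2) : ℝ) = z.im ^ (-(1 / 2) : ℝ) * ‖z‖ := by
    rw [show (-1 / z).im = z.im / ‖z‖ ^ 2 by simp [neg_div, normSq_eq_norm_sq],
      Real.div_rpow hz.le (by positivity), Real.rpow_neg (sq_nonneg _), ← Real.sqrt_eq_rpow,
      Real.sqrt_sq (norm_nonneg _), div_inv_eq_mul]
  have c := cs_sym K (X := fun s => conj (fn x s z)) (fun s => by
    simp only [fn_sym h, map_mul, map_intCast]) r
  simp only [h2 _ _ hz, e, map_mul, map_sum, c, mul_left_comm _ ((z.im ^ (-(1 / 2) : ℝ) : ℝ) : ℂ),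
    ← Finset.mul_sum, ofReal_mul, ← hw_conj, map_div₀, map_one]
  have a : conj (hw z) ≠ 0 := (map_ne_zero _).2 (hw_ne hz)
  have b : conj (z ^ 2) ≠ 0 := (map_ne_zero _).2 (pow_ne_zero 2 z0)
  field_simp

/-- the growth of the non holomorphic part -/
theorem nh_le {C : ℝ} (hC : ∀ r (τ : ℂ), 0 < τ.im → ‖fn x r τ‖ * τ.im ^ (3 / 4 : ℝ) ≤ C)
    (r : ZMod (2 * N)) {τ : ℂ} (hτ : 0 < τ.im) : ‖nh x r τ‖ * τ.im ^ (1 / 4 : ℝ) ≤ 4 * C := by
  have h := norm_integral_le_of_norm_le (μ := volume.restrict (Set.Ioi τ.im))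
    (f := fun s : ℝ => ((s ^ (-(1 / 2) : ℝ) : ℝ) : ℂ) *
      conj (fn x r (τ.re + I * (2 * s - τ.im : ℝ))))
    ((integrableOn_Ioi_rpow_of_lt (a := -(5 / 4)) (by norm_num) hτ).const_mul C)
    (ae_restrict_of_forall_mem measurableSet_Ioi fun s hs => by
      have s0 : 0 < s := hτ.trans hs
      have s1 : s ≤ 2 * s - τ.im := by linarith [Set.mem_Ioi.1 hs]
      have k := hC r (τ.re + I * (2 * s - τ.im : ℝ)) (by simpa using s0.trans_le s1)
      rw [show (τ.re + I * (2 * s - τ.im : ℝ) : ℂ).im = 2 * s - τ.im by simp] at k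
      have k2 := (mul_le_mul_of_nonneg_left (Real.rpow_le_rpow s0.le s1 (by norm_num))
        (norm_nonneg _)).trans k
      rw [norm_mul, norm_conj, norm_real, Real.norm_of_nonneg (by positivity), mul_comm,
        show (-(1 / 2) : ℝ) = 3 / 4 + -(5 / 4) by norm_num, Real.rpow_add s0, ← mul_assoc]
      exact mul_le_mul_of_nonneg_right k2 (by positivity))
  rw [integral_const_mul, integral_Ioi_rpow_of_lt (by norm_num) hτ] at h
  rw [nh, norm_neg]
  refine (mul_le_mul_of_nonneg_right h (by positivity)).trans (le_of_eq ?_)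
  have : τ.im ^ (-(5 / 4) + 1 : ℝ) * τ.im ^ (1 / 4 : ℝ) = 1 := by
    rw [← Real.rpow_add hτ]; norm_num
  linear_combination 4 * C * this

/-- the expansion of the holomorphic part -/
theorem coef (ok : Ok N δ) {h : ℍ → ℂ} {r : ZMod (2 * N)} (hol : Hol h)
    (bdd : IsBoundedAtImInfty fun τ : ℍ => cexp (2 * π * I * τ) * h τ)
    (hT : ∀ τ, h (ModularGroup.T • τ) = W.eQ N (iv N δ) r * h τ) : ∃ a : ℤ → ℂ,
    (∀ n < -(4 * N : ℤ), a n = 0) ∧ (∀ n, a n ≠ 0 → In N δ (-n) r) ∧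
      ∀ τ : ℍ, HasSum (fun n : ℤ => a n * ee (n * τ / (4 * N))) (h τ) := by
  have N0 := N_ne (N := N)
  have p : ∀ (k : ℕ) τ, h ((k : ℝ) +ᵥ τ) = W.eQ N (iv N δ) r ^ k * h τ := fun k τ => by
    induction k with
    | zero => simp
    | succ k ih => rw [Nat.cast_succ, add_comm, add_vadd, ← modular_T_smul, hT, ih, pow_succ', mul_assoc]
  obtain ⟨a, a1, a2⟩ := expand (M := 4 * N) (by have := NeZero.pos N; omega) hol bdd fun τ => by
    rw [p, W.eQ, ← W.ee_pow, W.ee_congr (y := 0) (iv N δ * r.val ^ 2)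
      (by push_cast; field_simp; simp), W.ee_zero, one_mul]
  push_cast at a1 a2
  refine ⟨a, a1, fun n hn => (tm_iff' ok n r).1 ?_, a2⟩
  have k := W.four_uniq (a := fun n : ℤ => a n * (ee (n / (4 * N)) - conj (tm N δ r)) *
    ee (n * I / (4 * N))) (fun y => by
      have := (a2 (ModularGroup.T • ((4 * N * y : ℝ) +ᵥ UpperHalfPlane.I))).sub
        ((a2 ((4 * N * y : ℝ) +ᵥ UpperHalfPlane.I)).mul_left (W.eQ N (iv N δ) r))
      rw [hT, sub_self] at this
      refine hs_cg this (fun n => ?_) rfl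
      have e1 : ee (n * ((4 * N * y : ℝ) + I) / (4 * N)) = ee (n * I / (4 * N)) * ee (n * y) := by
        rw [← ee_add]; congr 1; push_cast; field_simp; ring
      have e2 : ee (n * ((4 * N * y : ℝ) + I + 1) / (4 * N)) =
          ee (n / (4 * N)) * ee (n * ((4 * N * y : ℝ) + I) / (4 * N)) := by
        rw [← ee_add]; congr 1; ring
      rw [W.coe_T, coe_vadd, coe_I, conj_tm]
      change _ * ee _ = a n * ee _ - _ * (a n * ee _)
      rw [e2, e1]
      ring) n
  exact sub_eq_zero.1 ((mul_eq_zero.1 ((mul_eq_zero.1 k).resolve_right (ee_ne _))).resolve_left hn)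

theorem triv (hx : IsS δ x) (h : ∀ r (τ : ℍ), fn x r τ = 0) : Harm δ 0 x 0 := by
  have k : ∀ r (τ : ℂ), 0 < τ.im → hf 0 x r τ = 0 := fun r τ hτ => by
    simp only [hf, Pi.zero_apply, zero_mul, tsum_zero, zero_add, nh, neg_eq_zero]
    refine setIntegral_eq_zero_of_forall_eq_zero fun s hs => ?_
    have s1 : 0 < 2 * s - τ.im := by linarith [Set.mem_Ioi.1 hs]
    have := h r ⟨τ.re + I * (2 * s - τ.im : ℝ), by simpa using s1⟩
    rw [coe_mk] at this
    rw [this, map_zero, mul_zero]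
  exact ⟨hx, fun n r e => absurd rfl e, fun _ => rfl, fun _ _ _ => rfl,
    fun r τ _ => by simpa using summable_zero, fun τ hτ r => by simp [k _ _ hτ, k _ _ (im_S hτ)]⟩

end Du.Harm

open Du Du.Harm in
/-- the row `HARM` (`SPAN` is not needed) -/
theorem harm' (P : PHI) (pe : PETS) (hb : Kf.HFB) : HARM := by
  intro N _ δ ok x hx
  by_cases h0 : ∀ r (τ : ℍ), fn x r τ = 0
  · exact ⟨0, 0, triv hx h0⟩
  obtain ⟨r₀, h0⟩ := not_forall.1 h0
  obtain ⟨τ₀, h0⟩ := not_forall.1 h0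
  have K := kp P ok
  obtain ⟨sy, ⟨C, hC⟩, -⟩ := pe N δ ok x hx
  have H := hb N δ ok x hx
  have co := const K hx sy h0
  obtain ⟨σ, hσ⟩ := ex_sg ok
  obtain ⟨h, h1, h2, h3, h4⟩ := kill (n := fun τ r => nh x r τ) (iv_cop2 ok) hσ
    (fun τ r => by rw [W.coe_T, ((H r).2.1 _ τ.im_pos).2, conj_tm])
    (fun r => hol_iff.2 (DifferentiableOn.congr (fun z hz => (per_hol K hx sy (fun r => (H r).1)
      (fun r τ k => ((H r).2.1 τ k).1) r hz).differentiableWithinAt) fun z hz => by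
        simp only [Function.comp, Pi.sub_apply, co, coe_S', ofComplex_apply_of_im_pos hz, coe_mk]))
    fun τ r => nh_le hC r τ.im_pos
  choose a a1 a2 a3 using fun r => coef ok (h1 r) (h2 r) fun τ => h3 τ r
  have e : ∀ r (τ : ℍ), hf (fun n r => a r n) x r τ = h τ r + nh x r τ := fun r τ =>
    congrArg (· + nh x r τ) (a3 r τ).tsum_eq
  have l : ∀ τ : ℂ, 0 < τ.im → ∀ r, hf (fun n r => a r n) x r (-1 / τ) =
      hw τ * ∑ s, sm N δ r s * hf (fun n r => a r n) x s τ := fun τ hτ r => by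
    have := congrFun (h4 ⟨τ, hτ⟩) r
    rw [co] at this
    simp only [Pi.add_apply, ← e, coe_S', coe_mk] at this
    rw [← this, ← coe_S' ⟨τ, hτ⟩, e]
  refine ⟨fun n r => a r n, Finsupp.onFinset (Finset.range (4 * N + 1) ×ˢ Finset.univ)
    (fun i => if 0 < i.1 then a i.2 (-i.1) else 0) fun i hi => ?_, hx, fun n r => a2 r n,
    fun r => rfl, fun n r hn => if_pos hn, fun r τ hτ => (a3 r ⟨τ, hτ⟩).summable.norm,
    fun τ hτ r => ?_⟩
  · refine Finset.mem_product.2 ⟨Finset.mem_range.2 (not_le.1 fun k => hi ?_), Finset.mem_univ _⟩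
    rw [a1 _ _ (by omega), ite_self]
  · rw [l τ hτ, cs_sym K fun r => ?_]
    have k := l _ (im_S hτ) (-r)
    simp only [S_S hτ, l τ hτ, mul_left_comm _ (hw τ), ← Finset.mul_sum, K.sm2, neg_neg] at k
    rw [k]
    linear_combination (eps δ * hf (fun n r => a r n) x r τ) * hw_mul hτ

theorem harm : PHI → PETS → Kf.HFB → Du.SPAN → HARM := fun a b c _ => harm' a b c

end Vale.Agent.P004Z
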