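import Vale.Agent.P004Z.Du.Serre
import Vale.Agent.P004Z.Du.Exh
import Vale.Agent.P004Z.Du.Harm
import Vale.Agent.P004Z.Th.Phi

/-! # P004Z, block G2 without hypotheses -/

namespace Vale.Agent.P004Z

theorem g2 : FIN ∧ PETS ∧ SERRE ∧ HARM ∧ PAIR ∧ EXH :=
  ⟨fin phi, pets phi, serre phi, harm' phi (pets phi) hfb, pair phi stk,
    exh (fin phi) (pets phi) (serre phi) (harm' phi (pets phi) hfb) (pair phi stk)⟩

end Vale.Agent.P004Z
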