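import Vale.Agent.P004Z.Du.Bas

/-! # P004Z, block G2: holomorphic functions with exponential decay, the non-holomorphic part -/

set_option linter.all false

open Complex MeasureTheory Filter Topology Set Metric
open scoped Real ComplexConjugate

noncomputable section

namespace Vale.Agent.P004Z.Du.Pe

theorem oH : IsOpen {τ : ℂ | 0 < τ.im} := isOpen_lt continuous_const continuous_im

theorem nh_lt {v : ℝ} {τ : ℂ} (h : v < τ.im) : {z : ℂ | v < z.im} ∈ 𝓝 τ :=
  (isOpen_lt continuous_const continuous_im).mem_nhds h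

/-- holomorphic with exponential decay -/
structure Dec (c : ℝ) (g : ℂ → ℂ) : Prop where
  pos : 0 < c
  diff : DifferentiableOn ℂ g {τ | 0 < τ.im}
  bd : ∀ v, 0 < v → ∃ C, 0 ≤ C ∧ ∀ τ : ℂ, v ≤ τ.im → ‖g τ‖ ≤ C * Real.exp (-c * τ.im)

variable {c p : ℝ} {g : ℂ → ℂ} {τ : ℂ}

theorem Dec.at (h : Dec c g) (k : 0 < τ.im) : HasDerivAt g (deriv g τ) τ :=
  (h.diff.differentiableAt (nh_lt k)).hasDerivAt

theorem Dec.der (h : Dec c g) : Dec c (deriv g) := ⟨h.pos, h.diff.deriv oH, fun v hv => by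
  obtain ⟨C, a, hC⟩ := h.bd (v / 2) (half_pos hv)
  refine ⟨C * Real.exp (c * (v / 2)) / (v / 2), by positivity, fun τ k => ?_⟩
  have m : ∀ z ∈ closedBall τ (v / 2), τ.im - v / 2 ≤ z.im := fun z b => by
    have := (abs_le.1 ((abs_im_le_norm (z - τ)).trans (mem_closedBall_iff_norm.1 b))).1
    rw [sub_im] at this
    linarith
  refine (norm_deriv_le_of_forall_mem_sphere_norm_le (half_pos hv) (h.diff.diffContOnCl_ball
    fun z b => lt_of_lt_of_le (by linarith) (m z b))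
    (C := C * Real.exp (c * (v / 2)) * Real.exp (-c * τ.im)) fun z b => ?_).trans_eq (by ring)
  have := m z (sphere_subset_closedBall b)
  refine (hC z (by linarith)).trans ?_
  rw [mul_assoc, ← Real.exp_add]
  gcongr
  nlinarith [h.pos]⟩

/-- the integrand -/
def K (p : ℝ) (g : ℂ → ℂ) (τ : ℂ) (σ : ℝ) : ℂ := ((τ.im + σ) ^ p : ℝ) * conj (g (τ + 2 * I * σ))

/-- the integral -/
def J (p : ℝ) (g : ℂ → ℂ) (τ : ℂ) : ℂ := ∫ σ in Ioi 0, K p g τ σ

theorem im2 (τ : ℂ) (σ : ℝ) : (τ + 2 * I * σ).im = τ.im + 2 * σ := by simp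

theorem K_cont (h : Dec c g) (k : 0 < τ.im) {σ : ℝ} (s : 0 ≤ σ) :
    ContinuousAt (fun z : ℂ × ℝ => K p g z.1 z.2) (τ, σ) := by
  refine (continuous_ofReal.continuousAt.comp (ContinuousAt.rpow_const (by fun_prop)
    (.inl (by positivity)))).mul (continuous_conj.continuousAt.comp (ContinuousAt.comp
      (g := g) (h.at ?_).continuousAt (by fun_prop)))
  rw [im2]
  positivity

theorem K_meas (h : Dec c g) (k : 0 < τ.im) :
    AEStronglyMeasurable (K p g τ) (volume.restrict (Ioi 0)) :=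
  ContinuousOn.aestronglyMeasurable (fun σ s => ((K_cont h k (le_of_lt s)).comp
    (f := fun σ : ℝ => (τ, σ)) (by fun_prop)).continuousWithinAt) measurableSet_Ioi

theorem K_le (h : Dec c g) (hp : p ≤ 0) {v : ℝ} (hv : 0 < v) : ∃ C, 0 ≤ C ∧ ∀ τ : ℂ, v ≤ τ.im →
    ∀ σ : ℝ, 0 ≤ σ → ‖K p g τ σ‖ ≤ C * Real.exp (-c * τ.im) * Real.exp (-(2 * c) * σ) := by
  obtain ⟨C, a, hC⟩ := h.bd v hv
  refine ⟨v ^ p * C, by positivity, fun τ k σ s => ?_⟩
  rw [K, norm_mul, norm_real, norm_conj, Real.norm_of_nonneg (Real.rpow_nonneg (by linarith) _)]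
  refine (mul_le_mul (Real.rpow_le_rpow_of_nonpos hv (k.trans (le_add_of_nonneg_right s)) hp)
    (hC _ (by rw [im2]; linarith)) (norm_nonneg _) (by positivity)).trans_eq ?_
  rw [im2, mul_assoc (v ^ p * C), ← Real.exp_add]
  ring_nf

theorem K_le' (h : Dec c g) (hp : p ≤ 0) (k : 0 < τ.im) : ∃ C, ∀ z ∈ {z : ℂ | τ.im / 2 < z.im},
    ∀ σ : ℝ, 0 ≤ σ → ‖K p g z σ‖ ≤ C * Real.exp (-(2 * c) * σ) := by
  obtain ⟨C, a, hC⟩ := K_le h hp (half_pos k)
  refine ⟨C, fun z b σ s => (hC z (le_of_lt b) σ s).trans ?_⟩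
  gcongr
  refine mul_le_of_le_one_right a (Real.exp_le_one_iff.2 ?_)
  nlinarith [h.pos, show τ.im / 2 < z.im from b]

theorem ex_int (h : Dec c g) (C : ℝ) :
    Integrable (fun σ => C * Real.exp (-(2 * c) * σ)) (volume.restrict (Ioi 0)) :=
  (exp_neg_integrableOn_Ioi 0 (mul_pos two_pos h.pos)).const_mul C

theorem ae0 {P : ℝ → Prop} (h : ∀ σ, 0 ≤ σ → P σ) : ∀ᵐ σ ∂volume.restrict (Ioi (0 : ℝ)), P σ :=
  ae_restrict_of_forall_mem measurableSet_Ioi fun σ s => h σ (le_of_lt s)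

theorem K_int (h : Dec c g) (hp : p ≤ 0) (k : 0 < τ.im) :
    Integrable (K p g τ) (volume.restrict (Ioi 0)) := by
  obtain ⟨C, a⟩ := K_le' h hp k
  exact (ex_int h C).mono' (K_meas h k) (ae0 (a τ (half_lt_self k)))

theorem J_le (h : Dec c g) (hp : p ≤ 0) {v : ℝ} (hv : 0 < v) : ∃ C, 0 ≤ C ∧ ∀ τ : ℂ, v ≤ τ.im →
    ‖J p g τ‖ ≤ C * Real.exp (-c * τ.im) := by
  obtain ⟨C, a, hC⟩ := K_le h hp hv
  refine ⟨C * ∫ σ in Ioi 0, Real.exp (-(2 * c) * σ), by positivity, fun τ k =>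
    (norm_integral_le_of_norm_le (ex_int h _) (ae0 (hC τ k))).trans_eq ?_⟩
  rw [integral_const_mul]
  ring

theorem J_cont (h : Dec c g) (hp : p ≤ 0) (k : 0 < τ.im) : ContinuousAt (J p g) τ := by
  obtain ⟨C, a⟩ := K_le' h hp k
  exact continuousAt_of_dominated (eventually_of_mem (nh_lt k) fun z => K_meas h)
    (eventually_of_mem (nh_lt (half_lt_self k)) fun z b => ae0 (a z b)) (ex_int h C)
    (ae0 fun σ s => (K_cont h k s).comp (f := fun z : ℂ => (z, σ)) (by fun_prop))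

/-- the shape of the derivatives -/
def LL (a b : ℂ) : ℂ →L[ℝ] ℂ := a • ofRealCLM.comp imCLM + b • ContinuousLinearMap.id ℝ ℂ

theorem LL_apply (a b w : ℂ) : LL a b w = a * w.im + b * w := rfl

theorem LL_cont : Continuous fun z : ℂ × ℂ => LL z.1 z.2 := by
  unfold LL
  fun_prop

theorem LL_le (a b : ℂ) : ‖LL a b‖ ≤ ‖a‖ + ‖b‖ :=
  ContinuousLinearMap.opNorm_le_bound _ (by positivity) fun w => by
    rw [LL_apply, add_mul]
    refine (norm_add_le _ _).trans (add_le_add ?_ (norm_mul_le _ _))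
    rw [norm_mul, norm_real]
    exact mul_le_mul_of_nonneg_left (abs_im_le_norm w) (norm_nonneg _)

/-- the derivative of the integrand in the direction `σ` -/
def K' (p : ℝ) (g : ℂ → ℂ) (τ : ℂ) (σ : ℝ) : ℂ := p * K (p - 1) g τ σ - 2 * I * K p (deriv g) τ σ

theorem K_der (h : Dec c g) (k : 0 < τ.im) {σ : ℝ} (s : 0 ≤ σ) :
    HasFDerivAt (K p g · σ) (LL (K' p g τ σ) (K p (deriv g) τ σ)) τ := by
  have a := ofRealCLM.hasFDerivAt.comp τ ((imCLM.hasFDerivAt.add_const σ).rpow_const (p := p)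
    (.inl (show τ.im + σ ≠ 0 by positivity)))
  have b := conjCLE.hasFDerivAt.comp τ (((h.at (τ := τ + 2 * I * σ)
    (by rw [im2]; positivity)).comp_add_const τ _).hasFDerivAt.restrictScalars ℝ)
  refine (a.mul b).congr_fderiv (ContinuousLinearMap.ext fun w => ?_)
  have : conj w = w - 2 * I * w.im := by simp [Complex.ext_iff]; ring
  simp [LL_apply, K', K, this]
  ring

theorem K_ds (h : Dec c g) (k : 0 < τ.im) {σ : ℝ} (s : 0 ≤ σ) :
    HasDerivAt (K p g τ) (K' p g τ σ) σ := by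
  have a := (((hasDerivAt_id σ).const_add τ.im).rpow_const (p := p)
    (.inl (show τ.im + σ ≠ 0 by positivity))).ofReal_comp
  have b := ((h.at (τ := τ + 2 * I * σ) (by rw [im2]; positivity)).comp (σ : ℂ)
    (((hasDerivAt_id (σ : ℂ)).const_mul (2 * I)).const_add τ)).comp_ofReal.star
  refine (a.mul b).congr_deriv ?_
  simp [K', K]
  ring

theorem K'_int (h : Dec c g) (hp : p ≤ 0) (k : 0 < τ.im) :
    Integrable (K' p g τ) (volume.restrict (Ioi 0)) :=
  ((K_int h (by linarith) k).const_mul _).sub ((K_int h.der hp k).const_mul _)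

theorem K'_val (h : Dec c g) (hp : p ≤ 0) (k : 0 < τ.im) :
    ∫ σ in Ioi 0, K' p g τ σ = -((τ.im ^ p : ℝ) * conj (g τ)) := by
  obtain ⟨C, a⟩ := K_le' h hp k
  rw [integral_Ioi_of_hasDerivAt_of_tendsto' (fun σ s => K_ds h k s) (K'_int h hp k) (m := 0)
    (squeeze_zero_norm' ((eventually_ge_atTop 0).mono (a τ (half_lt_self k))) ?_)]
  · simp [K]
  · simpa using (Real.tendsto_exp_atBot.comp (tendsto_id.const_mul_atTop_of_neg
      (neg_neg_of_pos (mul_pos two_pos h.pos)))).const_mul C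

theorem J_der (h : Dec c g) (hp : p ≤ 0) (k : 0 < τ.im) :
    HasFDerivAt (J p g) (LL (-((τ.im ^ p : ℝ) * conj (g τ))) (J p (deriv g) τ)) τ := by
  obtain ⟨C, a⟩ := K_le' h (p := p - 1) (by linarith) k
  obtain ⟨D, b⟩ := K_le' h.der hp k
  have m := LL_cont.comp_aestronglyMeasurable ((K'_int h hp k).1.prodMk (K_meas (p := p) h.der k))
  have e : ∀ᵐ σ ∂volume.restrict (Ioi (0 : ℝ)), ∀ z ∈ {z : ℂ | τ.im / 2 < z.im},
      ‖LL (K' p g z σ) (K p (deriv g) z σ)‖ ≤ (|p| * C + 3 * D) * Real.exp (-(2 * c) * σ) :=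
    ae0 fun σ s z d => (LL_le _ _).trans (by
      have := norm_sub_le (p * K (p - 1) g z σ) (2 * I * K p (deriv g) z σ)
      simp only [norm_mul, norm_real, Real.norm_eq_abs, norm_I, Complex.norm_ofNat] at this
      rw [K']
      nlinarith [mul_le_mul_of_nonneg_left (a z d σ s) (abs_nonneg p), b z d σ s])
  refine (hasFDerivAt_integral_of_dominated_of_fderiv_le (nh_lt (half_lt_self k))
    (eventually_of_mem (nh_lt k) fun z => K_meas h) (K_int h hp k) m e (ex_int h _)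
    (ae0 fun σ s z d => K_der h ((half_pos k).trans d) s)).congr_fderiv
    (ContinuousLinearMap.ext fun w => ?_)
  rw [ContinuousLinearMap.integral_apply ((ex_int h _).mono' m
    (e.mono fun σ d => d τ (half_lt_self k)))]
  simp only [LL_apply]
  rw [integral_add ((K'_int h hp k).mul_const _) ((K_int h.der hp k).mul_const _),
    integral_mul_const, integral_mul_const, K'_val h hp k, J]

theorem J_c1 (h : Dec c g) (hp : p ≤ 0) : ContDiffOn ℝ 1 (J p g) {τ | 0 < τ.im} := fun τ k =>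
  (contDiffAt_one_iff.2 ⟨_, _, nh_lt k, fun z b => (LL_cont.continuousAt.comp (ContinuousAt.prodMk
    ((continuous_ofReal.continuousAt.comp (continuous_im.continuousAt.rpow_const
      (.inl (ne_of_gt b)))).mul (continuous_conj.continuousAt.comp (h.at b).continuousAt)).neg
    (J_cont h.der hp b))).continuousWithinAt, fun z b => J_der h hp b⟩).contDiffWithinAt

end Vale.Agent.P004Z.Du.Pe
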