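import Vale.Agent.P004Z.Du.Ps

/-! # P004Z, block G2: Eisenstein series for the scaled hyperbolic plane -/

set_option linter.all false

open Complex PowerSeries Finset
open scoped Real

noncomputable section

namespace Vale.Agent.P004Z.Du

/-- integral series -/
def IZ : Subring ℂ⟦X⟧ := (PowerSeries.map (Int.castRingHom ℂ)).range

theorem iz_iff {P : ℂ⟦X⟧} : P ∈ IZ ↔ ∀ n, ∃ z : ℤ, coeff n P = z :=
  ⟨fun ⟨Z, e⟩ n => ⟨coeff n Z, by simp [← e]⟩, fun h => by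
    choose z hz using h
    exact ⟨mk z, by ext n; simp [hz]⟩⟩

variable {ν : ℕ} [NeZero ν] {k : ℕ}

theorem sum_ind (g : ℤ → ℂ) (hg : ∀ x y, (ν : ℤ) ∣ x - y → g x = g y) (m : ℤ) :
    ∑ a ∈ range ν, (if (ν : ℤ) ∣ m - (a : ℕ) then g a else 0) = g m := by
  have h0 : (ν : ℤ) ≠ 0 := by exact_mod_cast NeZero.ne ν
  have h1 := Int.toNat_of_nonneg (Int.emod_nonneg m h0)
  have h2 := Int.emod_lt_of_pos m (by exact_mod_cast NeZero.pos ν : (0 : ℤ) < ν)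
  have h3 : (ν : ℤ) ∣ m - (m % ν).toNat := h1.symm ▸ Int.dvd_self_sub_of_emod_eq rfl
  rw [sum_eq_single (m % ν).toNat (fun a ha hn => if_neg fun h => hn ?_)
    (fun h => absurd (mem_range.2 (by omega)) h), if_pos h3, hg _ _ h3]
  rw [Int.emod_eq_emod_iff_emod_sub_eq_zero.2 (Int.emod_eq_zero_of_dvd h),
    Int.emod_eq_of_lt (by positivity) (by exact_mod_cast mem_range.1 ha), Int.toNat_natCast]

theorem sum_ee (n : ℤ) : ∑ c ∈ range ν, ee (c * n / ν) = if (ν : ℤ) ∣ n then (ν : ℂ) else 0 := by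
  simp only [mul_div_assoc, ee_pow, ← ee_div_eq_one (NeZero.ne ν)]
  split_ifs with h
  · simp [h]
  · rw [geom_sum_eq h, ← ee_pow, mul_div_cancel₀ _ N_ne, ee_int, sub_self, zero_div]

theorem ee_dvd {x y : ℤ} (h : (ν : ℤ) ∣ x - y) (c : ℤ) : ee (x * c / ν) = ee (y * c / ν) := by
  obtain ⟨e, h⟩ := h
  have := N_ne (N := ν)
  refine ee_congr (e * c) ?_
  rw [sub_eq_iff_eq_add.1 h]
  push_cast
  field_simp
  ring

theorem norm_ee1 (x : ℤ) : ‖ee (x / ν)‖ = 1 := by simp [norm_ee]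

theorem bd {ι : Type} {f g : ι → ℂ} (hf : Summable f) (hg : ∀ i, ‖g i‖ ≤ 1) :
    Summable fun i => g i * f i :=
  .of_norm_bounded hf.norm fun i => by
    rw [norm_mul]
    exact mul_le_of_le_one_left (norm_nonneg _) (hg i)

theorem lam (k : ℕ) (g : ℕ → ℕ → ℂ) (hg : ∀ m j, ‖g m j‖ ≤ 1) {t : ℂ} (ht : ‖t‖ < 1) :
    HasSum (fun D : ℕ => (∑ x ∈ D.divisorsAntidiagonal, g x.1 x.2 * x.2 ^ k) * t ^ D)
      (∑' m : ℕ+, ∑' j : ℕ+, g m j * (j ^ k * t ^ (m * j : ℕ))) := by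
  have h := bd (g := fun c : ℕ+ × ℕ+ => g c.1 c.2) (summable_prod_mul_pow k ht) fun _ => hg _ _
  rw [← h.tsum_prod]
  refine (PNat.coe_injective.hasSum_iff fun D hD => ?_).1
    ((sigmaAntidiagonalEquivProd.hasSum_iff.2 h.hasSum).sigma fun D => ?_)
  · rw [show D = 0 from by_contra fun e => hD ⟨⟨D, Nat.pos_of_ne_zero e⟩, rfl⟩]
    simp
  · convert hasSum_fintype _ using 1
    rw [Function.comp, sum_mul, ← sum_coe_sort]
    refine sum_congr rfl fun x _ => ?_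
    rw [mul_assoc]
    exact congrArg (fun n => g x.1.1 x.1.2 * ((x.1.2 : ℂ) ^ k * t ^ n))
      (Nat.mem_divisorsAntidiagonal.1 x.2).1.symm

/-- the constant of the Lipschitz formula -/
def lk (ν k : ℕ) : ℂ := (-2 * π * I) ^ (k + 1) / k.factorial / ν ^ k

theorem lip (hk : 1 ≤ k) (c : ℤ) {z : ℂ} (hz : 0 < z.im) :
    ∑' n : ℤ, ee (c * n / ν) * ((z + n) ^ (k + 1))⁻¹ =
      lk ν k * ∑' j : ℕ+, (if (ν : ℤ) ∣ (j : ℕ) + c then 1 else 0) * (j ^ k * tq ν z ^ (j : ℕ)) := by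
  have h0 := N_ne (N := ν)
  have h1 : Summable fun n : ℤ => ee (c * n / ν) * ((z + n) ^ (k + 1))⁻¹ :=
    bd (by simpa [← zpow_natCast] using EisensteinSeries.linear_right_summable z 1 (k := k + 1) (by omega))
      fun n => by simpa using (norm_ee1 (ν := ν) (c * n)).le
  have h2 := ((Int.divModEquiv ν).symm.summable_iff.2 h1).prod_symm
  have h3 : ∀ a : Fin ν, ∑' n : ℤ, ee (c * (n * ν + a : ℤ) / ν) * ((z + (n * ν + a : ℤ)) ^ (k + 1))⁻¹ =
      lk ν k * ∑' j : ℕ+, ee (a * ((j : ℕ) + c : ℤ) / ν) / ν * (j ^ k * tq ν z ^ (j : ℕ)) := fun a => by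
    have e := EisensteinSeries.qExpansion_identity_pnat hk ⟨(z + a) / ν, by
      simpa using div_pos hz (by exact_mod_cast NeZero.pos ν)⟩
    have e1 : ∀ n : ℤ, ee (c * (n * ν + a : ℤ) / ν) * ((z + (n * ν + a : ℤ)) ^ (k + 1))⁻¹ =
        ee (a * c / ν) / ν ^ (k + 1) * (1 / ((z + a) / ν + n) ^ (k + 1)) := fun n => by
      rw [ee_congr (y := a * c / ν) (c * n) (by push_cast; field_simp; ring),
        show z + (n * ν + a : ℤ) = ν * ((z + a) / ν + n) by push_cast; field_simp; ring, mul_pow,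
        mul_inv]
      ring
    simp only [e1, tsum_mul_left]
    rw [e, lk, ← tsum_mul_left, ← tsum_mul_left, ← tsum_mul_left]
    refine tsum_congr fun j => ?_
    rw [show cexp (2 * π * I * ((z + a) / ν)) = tq ν z * ee (a / ν) by rw [tq, ← ee_add, add_div, ee],
      mul_pow (tq ν z), ← ee_pow, show (a : ℂ) * ((j : ℕ) + c : ℤ) / ν = a * c / ν + j * (a / ν) by
        push_cast; ring, ee_add]
    ring
  have h4 : Summable fun j : ℕ+ => (j : ℂ) ^ k * tq ν z ^ (j : ℕ) :=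
    (summable_pow_mul_geometric_of_norm_lt_one k (tq_lt hz)).subtype _
  rw [← (Int.divModEquiv ν).symm.tsum_eq, ← (Equiv.prodComm _ _).tsum_eq]
  refine h2.tsum_prod.trans ?_
  rw [tsum_fintype]
  refine (sum_congr rfl fun a _ => h3 a).trans ?_
  rw [← mul_sum, ← Summable.tsum_finsetSum fun a _ => bd h4 fun j => ?_]
  · congr 2
    funext j
    rw [← sum_mul, ← sum_div, ← sum_range fun a : ℕ => ee (a * ((j : ℕ) + c : ℤ) / ν), sum_ee]
    split_ifs <;> simp [h0]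
  · rw [norm_div, ← Int.cast_natCast, ← Int.cast_mul, norm_ee1, Complex.norm_natCast]
    exact div_le_one_of_le₀ (by exact_mod_cast NeZero.pos ν) (by positivity)

variable (ν k) in
/-- the series -/
def Es (a c : ℤ) (τ : ℂ) : ℂ := ∑' v : ℤ × ℤ,
  (if (ν : ℤ) ∣ v.1 - a then ee (c * v.2 / ν) else 0) * ((v.1 * τ + v.2) ^ (k + 1))⁻¹

theorem sm_Es (hk : 2 ≤ k) {τ : ℂ} (h : 0 < τ.im) {g : ℤ × ℤ → ℂ} (hg : ∀ v, ‖g v‖ ≤ 1) :
    Summable fun v : ℤ × ℤ => g v * ((v.1 * τ + v.2) ^ (k + 1))⁻¹ :=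
  bd (by simpa [EisensteinSeries.eisSummand, ← zpow_natCast, -neg_add_rev] using
    summable_prod_eisSummand (k := k + 1) (by omega) ⟨τ, h⟩) hg

theorem le1 (a c : ℤ) (v : ℤ × ℤ) : ‖if (ν : ℤ) ∣ v.1 - a then ee (c * v.2 / ν) else 0‖ ≤ 1 := by
  split_ifs
  · simpa using (norm_ee1 (ν := ν) (c * v.2)).le
  · simp

theorem Es_S (hk : 2 ≤ k) (a c : ℤ) {τ : ℂ} (h : 0 < τ.im) : Es ν k a c (-1 / τ) =
    τ ^ (k + 1) / ν * ∑ a' ∈ range ν, ∑ c' ∈ range ν, ee ((a * c' + a' * c) / ν) * Es ν k a' c' τ := by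
  have h0 := N_ne (N := ν)
  have h1 := ne0 h
  simp only [Es, ← tsum_mul_left]
  rw [sum_congr rfl fun a' _ => (Summable.tsum_finsetSum fun c' _ =>
    (sm_Es hk h (le1 _ _)).mul_left _).symm, ← Summable.tsum_finsetSum fun a' _ =>
      summable_sum fun c' _ => (sm_Es hk h (le1 _ _)).mul_left _, ← tsum_mul_left,
    ← ((Equiv.prodComm _ _).trans ((Equiv.neg ℤ).prodCongr (.refl ℤ))).tsum_eq]
  refine tsum_congr fun v => ?_
  have e : ∀ a' c' : ℕ, ee ((a * c' + a' * c) / ν) * ((if (ν : ℤ) ∣ v.1 - a' then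
      ee ((c' : ℤ) * v.2 / ν) else 0) * ((v.1 * τ + v.2) ^ (k + 1))⁻¹) =
      (if (ν : ℤ) ∣ v.1 - a' then ee ((a' : ℤ) * c / ν) else 0) * ee (c' * (a + v.2 : ℤ) / ν) *
        ((v.1 * τ + v.2) ^ (k + 1))⁻¹ := fun a' c' => by
    split_ifs
    · rw [← mul_assoc, ← ee_add, ← ee_add]
      congr 2
      push_cast
      ring
    · simp
  simp only [e, ← sum_mul, ← mul_sum, sum_ee, sum_ind (fun x => ee (x * c / ν)) fun _ _ h => ee_dvd h c]
  simp only [Equiv.trans_apply, Equiv.prodComm_apply, Equiv.prodCongr_apply, Prod.map, Prod.fst_swap,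
    Prod.snd_swap, Equiv.neg_apply, Equiv.refl_apply, show -v.2 - a = -(a + v.2) by ring, dvd_neg]
  rw [show ((-v.2 : ℤ) : ℂ) * (-1 / τ) + v.1 = (v.1 * τ + v.2) / τ by push_cast; field_simp; ring,
    div_pow, mul_comm (c : ℂ)]
  split_ifs
  · field_simp
  · simp

variable (ν k) in
/-- the coefficients -/
def ec (a c : ℤ) (D : ℕ) : ℤ := ∑ x ∈ D.divisorsAntidiagonal,
  ((if (ν : ℤ) ∣ x.1 - a ∧ (ν : ℤ) ∣ -x.2 - c then 1 else 0) +
    (-1) ^ (k + 1) * if (ν : ℤ) ∣ -x.1 - a ∧ (ν : ℤ) ∣ x.2 - c then 1 else 0) * x.2 ^ k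

theorem Es_hs (hk : 2 ≤ k) (a : ℤ) (c : Fin ν) : ∃ ρ : ℚ, (ρ ≠ 0 → (ν : ℤ) ∣ a) ∧ ∀ τ : ℂ, 0 < τ.im →
    HasSum (fun D => coeff D (C (ρ : ℂ) + mk fun D => (ec ν k a c D : ℂ)) * tq ν τ ^ D)
      (Es ν k a c τ / lk ν k) := by
  have h0 := N_ne (N := ν)
  have p0 : (0 : ℝ) < ν := by exact_mod_cast NeZero.pos ν
  have l0 : lk ν k ≠ 0 := by simp [lk, h0, Nat.factorial_ne_zero, Real.pi_ne_zero]
  refine ⟨if (ν : ℤ) ∣ a then (-1) ^ k * ν ^ k / (k + 1) *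
    (Polynomial.bernoulli (k + 1)).eval (c / ν : ℚ) else 0, fun h => by_contra fun e => h (if_neg e),
    fun τ h => ?_⟩
  have hs := sm_Es hk h (le1 (ν := ν) a c)
  have b1 : ∀ p : Prop, [Decidable p] → ‖(if p then 1 else 0 : ℂ)‖ ≤ 1 := fun p _ => by
    split_ifs <;> simp
  have s1 := lam k (fun m j => if (ν : ℤ) ∣ m - a ∧ (ν : ℤ) ∣ -j - (c : ℕ) then 1 else 0)
    (fun _ _ => b1 _) (tq_lt (M := ν) h)
  have s2 := (lam k (fun m j => if (ν : ℤ) ∣ -m - a ∧ (ν : ℤ) ∣ j - (c : ℕ) then 1 else 0)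
    (fun _ _ => b1 _) (tq_lt (M := ν) h)).mul_left ((-1) ^ (k + 1))
  have hm : ∀ m : ℕ+, 0 < ((m : ℂ) * τ).im := fun m => by simpa using h
  have tp : ∀ m j : ℕ, tq ν (m * τ) ^ j = tq ν τ ^ (m * j) := fun m j => by
    rw [pow_mul, tq_pow m, tq]
  generalize hρ : (if (ν : ℤ) ∣ a then (-1) ^ k * ν ^ k / (k + 1) *
    (Polynomial.bernoulli (k + 1)).eval (c / ν : ℚ) else 0 : ℚ) = ρ
  convert (hs_C (ρ : ℂ) (tq ν τ)).add (s1.add s2) using 1
  · funext D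
    simp only [map_add, coeff_mk, ec, add_mul, sum_add_distrib, mul_assoc, ← mul_sum, Int.cast_add,
      Int.cast_sum, Int.cast_mul, Int.cast_pow, Int.cast_natCast, Int.cast_ite, Int.cast_one,
      Int.cast_zero, Int.cast_neg]
  rw [Es, hs.tsum_prod, tsum_int_eq_zero_add_tsum_pnat hs.prod, div_eq_iff l0, add_assoc, add_mul,
    add_mul]
  refine congrArg₂ (· + ·) ?_ (congrArg₂ (· + ·) ?_ ?_)
  · simp only [zero_sub, dvd_neg, ← hρ]
    split_ifs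
    · have := (hasSum_one_div_pow_mul_fourier_mul_bernoulliFun (k := k + 1) (x := c / ν) (by omega)
        ⟨by positivity, div_le_one_of_le₀ (by exact_mod_cast c.2.le) p0.le⟩).tsum_eq
      rw [bernoulliFun, show ((c : ℕ) / ν : ℝ) = algebraMap ℚ ℝ (c / ν) by simp,
        Polynomial.eval_map_algebraMap, Polynomial.aeval_algebraMap_apply_eq_algebraMap_eval] at this
      refine Eq.trans (tsum_congr fun n => ?_) (this.trans ?_)
      · simp [ee, mul_comm, mul_left_comm, mul_assoc, div_eq_mul_inv]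
      · have : (k : ℂ) + 1 ≠ 0 := by exact_mod_cast k.succ_ne_zero
        have : (k.factorial : ℂ) ≠ 0 := by exact_mod_cast k.factorial_ne_zero
        simp only [lk, Nat.factorial_succ, eq_ratCast, ofReal_ratCast, neg_mul, neg_pow (2 * π * I : ℂ)]
        push_cast
        field_simp
        ring_nf
        simp
    · simp
  · rw [mul_comm, ← tsum_mul_left]
    refine tsum_congr fun m => ?_
    by_cases e : (ν : ℤ) ∣ (m : ℕ) - a
    · simpa [e, tp, show ∀ j : ℤ, -j - c = -(j + c) by intro; ring, -neg_add_rev] using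
        lip (ν := ν) (by omega : 1 ≤ k) c (hm m)
    · simp [e]
  · rw [mul_comm, mul_left_comm, ← tsum_mul_left, ← tsum_mul_left]
    refine tsum_congr fun m => ?_
    by_cases e : (ν : ℤ) ∣ -(m : ℕ) - a
    · have := lip (ν := ν) (by omega : 1 ≤ k) (-c) (hm m)
      simp only [tp, ← sub_eq_add_neg] at this
      simp only [e, if_true, true_and]
      rw [← this, ← tsum_mul_left, ← (Equiv.neg ℤ).tsum_eq]
      refine tsum_congr fun n => ?_
      simp only [Equiv.neg_apply, Int.cast_neg, Int.cast_natCast, neg_mul, mul_neg, ← neg_add,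
        neg_pow (_ + _ : ℂ), mul_inv, ← inv_pow, inv_neg, inv_one]
      ring
    · simp [e]

/-- **the integral Eisenstein family** -/
theorem eis (ν : ℕ) [NeZero ν] (hk : 2 ≤ k) : ∃ (m : ℤ) (E : ℕ → ℕ → ℂ⟦X⟧), m ≠ 0 ∧
    (∀ a c, E a c ∈ Cv ∧ E a c ∈ IZ) ∧ (∀ a ∈ range ν, ∀ c ∈ range ν,
      (∀ D, D ≠ 0 → coeff D (E a c) = m * ec ν k a c D) ∧ (coeff 0 (E a c) ≠ 0 → (ν : ℤ) ∣ a) ∧
      ∀ τ : ℂ, 0 < τ.im → ev (E a c) (tq ν (-1 / τ)) = τ ^ (k + 1) / ν * ∑ a' ∈ range ν,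
        ∑ c' ∈ range ν, ee ((a * c' + a' * c) / ν) * ev (E a' c') (tq ν τ)) := by
  choose ρ h1 h2 using fun (p : Fin ν × Fin ν) => Es_hs hk p.1 p.2
  obtain ⟨⟨m, hm⟩, h3⟩ := IsLocalization.exist_integer_multiples_of_finite (nonZeroDivisors ℤ) ρ
  let E : ℕ → ℕ → ℂ⟦X⟧ := fun a c => if h : a < ν ∧ c < ν then
    C (m : ℂ) * (C (ρ (⟨a, h.1⟩, ⟨c, h.2⟩) : ℂ) + mk fun D => (ec ν k a c D : ℂ)) else 0
  have cv : ∀ p : Fin ν × Fin ν, (C (ρ p : ℂ) + mk fun D => (ec ν k p.1 p.2 D : ℂ)) ∈ Cv := fun p =>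
    mem_tq ν fun τ h => by simpa only [tq_pow] using (h2 p τ h).summable
  have he : ∀ a ∈ range ν, ∀ c ∈ range ν, ∀ τ : ℂ, 0 < τ.im →
      ev (E a c) (tq ν τ) = m * (Es ν k a c τ / lk ν k) := fun a ha c hc τ h => by
    simp only [E, dif_pos (And.intro (mem_range.1 ha) (mem_range.1 hc))]
    rw [ev_Cmul (tq_lt h) (cv (⟨a, _⟩, ⟨c, _⟩)), ev, (h2 (⟨a, _⟩, ⟨c, _⟩) τ h).tsum_eq]
  refine ⟨m, E, nonZeroDivisors.ne_zero hm, fun a c => ?_, fun a ha c hc => ⟨fun D hD => ?_,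
    fun h => ?_, fun τ h => ?_⟩⟩
  · simp only [E]
    split_ifs with h
    · obtain ⟨z, hz⟩ := h3 (⟨a, h.1⟩, ⟨c, h.2⟩)
      refine ⟨mul_mem (C_mem _) (cv (⟨a, h.1⟩, ⟨c, h.2⟩)), ⟨C z + C m * mk (ec ν k a c), ?_⟩⟩
      have := congrArg (Rat.cast : ℚ → ℂ) hz
      ext n
      simp only [eq_intCast, zsmul_eq_mul, Rat.cast_mul, Rat.cast_intCast] at this
      simp [mul_add, coeff_C, ← this, -eq_intCast, -map_intCast]
    · exact ⟨zero_mem _, zero_mem _⟩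
  · simp [E, mem_range.1 ha, mem_range.1 hc, coeff_C, hD, -map_intCast]
  · refine h1 (⟨a, mem_range.1 ha⟩, ⟨c, mem_range.1 hc⟩) fun e => h ?_
    simp [E, mem_range.1 ha, mem_range.1 hc, e, ec]
  · rw [he a ha c hc _ (im_S h), Es_S hk _ _ h]
    simp only [mul_sum, sum_div, Int.cast_natCast]
    refine sum_congr rfl fun a ha => sum_congr rfl fun c hc => ?_
    rw [he a ha c hc τ h]
    ring

end Vale.Agent.P004Z.Du
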