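import Mathlib

/-! # P004Z, block G2, row HARM: a cocycle of polynomial growth is killed by Eisenstein series -/

set_option linter.all false

open UpperHalfPlane hiding I
open Complex Matrix EisensteinSeries ModularForm Filter Asymptotics
open scoped MatrixGroups Real Manifold Topology

noncomputable section

namespace Vale.Agent.P004Z.Du.Harm

/-- holomorphic functions -/
abbrev Hol (f : ℍ → ℂ) : Prop := MDifferentiable 𝓘(ℂ) 𝓘(ℂ) f

theorem hol_iff {f : ℍ → ℂ} : Hol f ↔ DifferentiableOn ℂ (f ∘ ofComplex) {z | 0 < z.im} :=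
  UpperHalfPlane.mdifferentiable_iff

theorem hs_cg {ι : Type} {f g : ι → ℂ} {a b : ℂ} (h : HasSum f a) (e : ∀ i, g i = f i)
    (e' : b = a) : HasSum g b := (funext e : g = f) ▸ e' ▸ h

theorem bd_cg {f g : ℍ → ℂ} (h : BoundedAtFilter atImInfty f) (e : ∀ τ, g τ = f τ) :
    IsBoundedAtImInfty g := (funext e : g = f) ▸ h

/-- coprime pairs -/
abbrev CP : Type := gammaSet 1 1 (0 : Fin 2 → ZMod 1)

/-- right multiplication -/
def rm (γ : SL(2, ℤ)) : CP ≃ CP := (gammaSetEquiv 0 γ).trans (gammaSet_one_equiv 1 _ _)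

theorem rm_val (γ : SL(2, ℤ)) (v : CP) : (rm γ v).1 = v.1 ᵥ* γ.1 := rfl

/-- the Poincaré series -/
def ps (k : ℤ) (W : CP → ℍ → ℂ) (τ : ℍ) : ℂ := ∑' v : CP, eisSummand k v τ * W v τ

/-- uniformly bounded in half planes -/
def Ub (W : CP → ℍ → ℂ) : Prop := ∀ B : ℝ, 0 < B → ∃ C : ℝ, ∀ v τ, B ≤ τ.im → ‖W v τ‖ ≤ C

variable {k : ℤ} {W : CP → ℍ → ℂ}

theorem sum_ab (hk : 3 ≤ k) (τ : ℍ) : Summable fun v : CP => ‖eisSummand k v τ‖ :=
  (summable_norm_eisSummand hk τ).subtype _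

theorem sum_ps (hk : 3 ≤ k) {W : CP → ℂ} {C : ℝ} (h : ∀ v, ‖W v‖ ≤ C) (τ : ℍ) :
    Summable fun v : CP => eisSummand k v τ * W v :=
  ((sum_ab hk τ).mul_right C).of_norm_bounded fun v => by
    rw [norm_mul]
    exact mul_le_mul_of_nonneg_left (h v) (norm_nonneg _)

theorem strip (hk : 3 ≤ k) {A B : ℝ} (hB : 0 < B) : ∃ u : CP → ℝ, Summable u ∧
    ∀ (v : CP), ∀ τ ∈ verticalStrip A B, ‖eisSummand k v τ‖ ≤ u v := by
  have hk' : (2 : ℝ) < k := by norm_cast
  refine ⟨fun v => r ⟨⟨A, B⟩, hB⟩ ^ (-k : ℝ) * ‖v.1‖ ^ (-k : ℝ),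
    ((summable_one_div_norm_rpow hk').subtype _).mul_left _, fun v τ hτ => ?_⟩
  simpa only [eisSummand, norm_zpow, ← Real.rpow_intCast, Int.cast_neg] using
    summand_bound_of_mem_verticalStrip (k := k) (by positivity) v.1 hB hτ

theorem hol_eis (k : ℤ) (v : CP) : Hol (eisSummand k v.1) :=
  hol_iff.2 (eisSummand_extension_differentiableOn k v.1)

theorem hol_ps (hk : 3 ≤ k) (hW : Ub W) (h : ∀ v, Hol (W v)) : Hol (ps k W) := fun τ => by
  have h0 : 0 < τ.im / 2 := half_pos τ.im_pos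
  obtain ⟨u, hu, hb⟩ := strip hk (A := |τ.re| + 1) h0
  obtain ⟨C, hC⟩ := hW _ h0
  have hU : IsOpen {z : ℂ | |z.re| < |τ.re| + 1 ∧ τ.im / 2 < z.im} :=
    (isOpen_lt Complex.continuous_re.abs continuous_const).inter
      (isOpen_lt continuous_const Complex.continuous_im)
  refine UpperHalfPlane.mdifferentiableAt_iff.2 ((differentiableOn_tsum_of_summable_norm (hu.mul_right C)
    (F := fun v z => eisSummand k v.1 (ofComplex z) * W v (ofComplex z))
    (fun v => (hol_iff.1 ((hol_eis k v).mul (h v))).mono fun z hz => h0.trans hz.2) hU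
    fun v z hz => ?_).differentiableAt (hU.mem_nhds ⟨by simp, by simpa using τ.im_pos⟩))
  rw [ofComplex_apply_of_im_pos (h0.trans hz.2), norm_mul]
  have := hb v ⟨z, h0.trans hz.2⟩ ⟨hz.1.le, hz.2.le⟩
  exact mul_le_mul this (hC _ _ hz.2.le) (norm_nonneg _) ((norm_nonneg _).trans this)

theorem den_T (n : ℤ) (τ : ℍ) : denom (ModularGroup.T ^ n : SL(2, ℤ)) τ = 1 := by
  rw [ModularGroup.denom_apply]
  simp [ModularGroup.coe_T_zpow]

theorem bdd_ps (hk : 3 ≤ k) (hW : Ub W) : IsBoundedAtImInfty (ps k W) := by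
  obtain ⟨u, hu, hb⟩ := strip hk (A := (1 : ℕ)) one_pos
  obtain ⟨C, hC⟩ := hW _ one_pos
  refine isBoundedAtImInfty_iff.2 ⟨(∑' v, u v) * C, 1, fun τ hτ => ?_⟩
  obtain ⟨n, hn⟩ := ModularGroup_T_zpow_mem_verticalStrip τ one_pos
  have h1 := fun v => hb v _ (verticalStrip_anti_right _ hτ hn)
  simp only [eisSummand_SL2_apply, den_T, _root_.one_zpow, one_mul, ← rm_val] at h1
  rw [← tsum_mul_right, ps, ← (rm _).tsum_eq]
  refine tsum_of_norm_bounded (hu.mul_right C).hasSum fun v => ?_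
  rw [norm_mul]
  exact mul_le_mul (h1 v) (hC _ _ hτ) (norm_nonneg _) ((norm_nonneg _).trans (h1 v))

theorem E_eq {k : ℕ} (hk : 3 ≤ k) (τ : ℍ) : ∑' v : CP, eisSummand k v τ = 2 * E hk τ := by
  show _ = 2 * ((1 / 2 : ℂ) * ∑' v : CP, eisSummand k v τ)
  ring

theorem mf_law {k : ℤ} {F : Type} [FunLike F ℍ ℂ] [SlashInvariantFormClass F 𝒮ℒ k] (f : F)
    (γ : SL(2, ℤ)) (τ : ℍ) : f (γ • τ) = denom γ τ ^ k * f τ :=
  SlashInvariantForm.slash_action_eqn'' (Γ := 𝒮ℒ) f ⟨γ, rfl⟩ τ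

variable {A : Type} [Fintype A]

/-- the vector valued series -/
def pv (k : ℤ) (W : CP → ℍ → A → ℂ) (τ : ℍ) (r : A) : ℂ := ps k (fun v τ => W v τ r) τ

theorem pv_law (hk : 3 ≤ k) {W : CP → ℍ → A → ℂ} {τ : ℍ} (hb : ∀ r, ∃ C, ∀ v, ‖W v τ r‖ ≤ C)
    {γ : SL(2, ℤ)} {M : Matrix A A ℂ} (h : ∀ v, W v (γ • τ) = M *ᵥ W (rm γ v) τ) :
    pv k W (γ • τ) = denom γ τ ^ k • M *ᵥ pv k W τ := by
  funext r
  choose C hC using hb
  have h1 := (hasSum_sum fun s (_ : s ∈ Finset.univ) =>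
    (sum_ps hk (hC s) τ).hasSum.mul_left (M r s)).mul_left (denom γ τ ^ k)
  refine (hs_cg ((rm γ).hasSum_iff.2 h1) (fun v => ?_) rfl).tsum_eq
  simp only [Function.comp, h, eisSummand_SL2_apply, rm_val, mulVec, dotProduct, Finset.mul_sum]
  exact Finset.sum_congr rfl fun s _ => by ring

theorem bdd_qD : IsBoundedAtImInfty fun τ : ℍ => cexp (2 * π * I * τ) / discriminant τ := by
  refine (isBigO_one_iff ℝ).2 (div_isBoundedUnder_of_isBigO (IsBigO.of_norm_left ?_))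
  refine exp_isBigO_discriminant.congr_left fun τ => ?_
  simp [norm_exp]

/-- **Knopp's construction** -/
theorem knopp (n : ℍ → A → ℂ) (W : CP → ℍ → A → ℂ) (h1 : ∀ v r, Hol fun τ => W v τ r - n τ r)
    (h2 : ∀ r, Ub fun v τ => W v τ r - n τ r) : ∃ h : ℍ → A → ℂ, (∀ r, Hol fun τ => h τ r) ∧
    (∀ r, IsBoundedAtImInfty fun τ : ℍ => cexp (2 * π * I * τ) * h τ r) ∧
    ∀ (γ : SL(2, ℤ)) (M : Matrix A A ℂ) (τ : ℍ), (∀ v, W v (γ • τ) = M *ᵥ W (rm γ v) τ) →
      h (γ • τ) + n (γ • τ) = M *ᵥ (h τ + n τ) := by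
  have b1 : ∀ τ r, ∃ C, ∀ v, ‖W v τ r - n τ r‖ ≤ C := fun τ r =>
    (h2 r _ τ.im_pos).imp fun C h v => h v τ le_rfl
  have b2 : ∀ τ r, ∃ C, ∀ v, ‖W v τ r‖ ≤ C := fun τ r => by
    obtain ⟨C, h⟩ := b1 τ r
    exact ⟨C + ‖n τ r‖, fun v => (norm_le_norm_sub_add _ (n τ r)).trans (add_le_add_left (h v) _)⟩
  have e : ∀ (k : ℕ) (hk : 3 ≤ k) τ, pv k W τ = pv k (fun v τ => W v τ - n τ) τ +
      (2 * E hk τ) • n τ := fun k hk τ => funext fun r => by
    obtain ⟨C, h⟩ := b1 τ r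
    have hk' : (3 : ℤ) ≤ k := by exact_mod_cast hk
    simp only [pv, ps, Pi.add_apply, Pi.smul_apply, Pi.sub_apply, smul_eq_mul, ← E_eq,
      ← tsum_mul_right]
    rw [← (sum_ps hk' h τ).tsum_add (sum_ps hk' (fun _ => le_rfl) τ)]
    exact tsum_congr fun v => by ring
  have D0 := discriminant_ne_zero
  refine ⟨fun τ => (3456 * discriminant τ)⁻¹ • (E₄ τ ^ 2 • pv 4 (fun v τ => W v τ - n τ) τ -
    E₆ τ • pv 6 (fun v τ => W v τ - n τ) τ), fun r => ?_, fun r => ?_, fun γ M τ h => ?_⟩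
  · exact ((mdifferentiable_const.mul CuspForm.discriminant.holo').inv fun τ =>
      mul_ne_zero (by norm_num) (D0 τ)).mul (((E₄.holo'.pow 2).mul
        (hol_ps (by norm_num) (h2 r) (h1 · r))).sub
          (E₆.holo'.mul (hol_ps (by norm_num) (h2 r) (h1 · r))))
  · have b4 : IsBoundedAtImInfty E₄ := ModularFormClass.bdd_at_infty _
    have b6 : IsBoundedAtImInfty E₆ := ModularFormClass.bdd_at_infty _
    have := (bdd_qD.mul (((b4.mul b4).mul (bdd_ps (k := 4) (by norm_num) (h2 r))).add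
      (b6.mul (bdd_ps (k := 6) (by norm_num) (h2 r))).neg)).smul (3456 : ℂ)⁻¹
    refine bd_cg this fun τ => ?_
    simp only [pv, Pi.smul_apply, Pi.sub_apply, Pi.mul_apply, Pi.add_apply, Pi.neg_apply,
      smul_eq_mul]
    ring
  · have k : ∀ τ, (3456 * discriminant τ)⁻¹ • (E₄ τ ^ 2 • pv 4 (fun v τ => W v τ - n τ) τ -
        E₆ τ • pv 6 (fun v τ => W v τ - n τ) τ) + n τ =
        (3456 * discriminant τ)⁻¹ • (E₄ τ ^ 2 • pv 4 W τ - E₆ τ • pv 6 W τ) := fun τ => by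
      have e4 := e 4 (by norm_num) τ
      have e6 := e 6 (by norm_num) τ
      have d := discriminant_eq_E₄_cube_sub_E₆_sq τ
      have d0 := D0 τ
      simp only [Nat.cast_ofNat] at e4 e6
      rw [e4, e6]
      funext r
      simp only [Pi.smul_apply, Pi.sub_apply, Pi.add_apply, smul_eq_mul]
      field_simp
      linear_combination 3456 * n τ r * d
    have d0 := D0 τ
    have d1 := denom_ne_zero γ τ
    have l := mf_law CuspForm.discriminant γ τ
    simp only [CuspForm.coe_discriminant] at l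
    simp only [k]
    rw [pv_law (by norm_num) (b2 τ) h, pv_law (by norm_num) (b2 τ) h, mf_law E₄, mf_law E₆, l,
      mulVec_smul, mulVec_sub, mulVec_smul, mulVec_smul]
    funext r
    simp only [Pi.smul_apply, Pi.sub_apply, smul_eq_mul, zpow_ofNat]
    field_simp

/-- the expansion of a periodic function with a simple pole in `e(τ)` -/
theorem expand {M : ℕ} (hM : 0 < M) {h : ℍ → ℂ} (hol : Hol h)
    (bdd : IsBoundedAtImInfty fun τ : ℍ => cexp (2 * π * I * τ) * h τ)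
    (per : ∀ τ, h ((M : ℝ) +ᵥ τ) = h τ) : ∃ a : ℤ → ℂ, (∀ n < -(M : ℤ), a n = 0) ∧
      ∀ τ : ℍ, HasSum (fun n : ℤ => a n * cexp (2 * π * I * (n * τ / M))) (h τ) := by
  have M0 : (M : ℂ) ≠ 0 := Nat.cast_ne_zero.2 hM.ne'
  have p : Function.Periodic ((fun τ : ℍ => cexp (2 * π * I * τ) * h τ) ∘ ofComplex) (M : ℝ) := by
    intro w
    by_cases hw : 0 < w.im
    · have e : ofComplex (w + (M : ℝ)) = (M : ℝ) +ᵥ ofComplex w := by
        rw [ofComplex_apply_of_im_pos hw, ofComplex_apply_of_im_pos (by simpa using hw)]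
        exact UpperHalfPlane.ext (add_comm _ _)
      simp only [Function.comp, e, per, coe_vadd, mul_add, exp_add]
      rw [ofReal_natCast, mul_comm _ (M : ℂ), exp_nat_mul_two_pi_mul_I, one_mul]
    · simp only [Function.comp]
      rw [ofComplex_apply_eq_of_im_nonpos (w' := w) (by simpa using hw) (not_lt.1 hw)]
  have q : Hol fun τ : ℍ => cexp (2 * π * I * τ) := hol_iff.2
    (DifferentiableOn.congr (f := fun z => cexp (2 * π * I * z)) (by fun_prop) fun z hz => by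
      simp [ofComplex_apply_of_im_pos hz])
  have s := hasSum_qExpansion (Nat.cast_pos.2 hM) p (q.mul hol) bdd
  generalize (qExpansion (M : ℝ) fun τ : ℍ => cexp (2 * π * I * τ) * h τ) = P at s
  refine ⟨fun n => if 0 ≤ n + M then P.coeff (n + M).toNat else 0,
    fun n hn => if_neg (by omega), fun τ => ?_⟩
  have inj : Function.Injective fun m : ℕ => (m : ℤ) - M := fun a b e => by
    simpa using e
  refine (inj.hasSum_iff fun n hn => ?_).1 ?_
  · beta_reduce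
    rw [if_neg fun k => hn ⟨(n + M).toNat, by beta_reduce; omega⟩, zero_mul]
  · refine hs_cg ((s τ).mul_left (cexp (-(2 * π * I * τ)))) (fun m => ?_) ?_
    · simp only [Function.comp, sub_add_cancel, Nat.cast_nonneg, if_true, Int.toNat_natCast,
        smul_eq_mul, Function.Periodic.qParam, ← exp_nat_mul]
      rw [mul_left_comm, ← exp_add]
      congr 2
      push_cast
      field_simp
      ring
    · rw [← mul_assoc, ← exp_add, neg_add_cancel, exp_zero, one_mul]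

end Vale.Agent.P004Z.Du.Harm
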