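import Vale.Agent.P004Z.Du.HarmA
import Vale.Agent.P004Z.W.Th

/-! # P004Z, block G2, row HARM: the period cocycle -/

set_option linter.all false

open UpperHalfPlane hiding I
open Complex Matrix
open scoped MatrixGroups Real Manifold Topology

noncomputable section

namespace Vale.Agent.P004Z.Du.Harm

open W

variable {N : ℕ} [NeZero N] {u : ℤ} (σ : ℂ →+* ℂ)

/-- the action in weight `1 / 2` -/
def act (x : Mp) (F : ℍ → AA N → ℂ) : ℍ → AA N → ℂ := mv (Rs N σ x⁻¹) (sl 1 x F)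

variable {σ} {x y : Mp} {F n : ℍ → AA N → ℂ}

theorem act_mul (hx : x ∈ Gm) (hy : y ∈ Gm) (F : ℍ → AA N → ℂ) :
    act σ (x * y) F = act σ y (act σ x F) := by
  rw [act, act, act, sl_mul, sl_mv, mv_mv, _root_.mul_inv_rev, Rs_mul (inv_mem hy) (inv_mem hx)]

theorem act_one (F : ℍ → AA N → ℂ) : act σ 1 F = F := by rw [act, inv_one, Rs_one, sl_one, mv_one]

theorem act_apply (x : Mp) (F : ℍ → AA N → ℂ) (τ : ℍ) :
    act σ x F τ = (x.j τ)⁻¹ • Rs N σ x⁻¹ *ᵥ F (x.g • τ) := by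
  simp only [act, mv, sl, mulVec_smul, _root_.zpow_neg, zpow_one]

theorem act_sub (x : Mp) (F G : ℍ → AA N → ℂ) : act σ x (F - G) = act σ x F - act σ x G :=
  funext fun τ => by simp only [act_apply, Pi.sub_apply, mulVec_sub, smul_sub]

theorem act_of (hx : x ∈ Gm) (h : sl 1 x F = mv (Rs N σ x) F) : act σ x F = F := by
  rw [act, h, mv_mv, Rs_inv hx, mv_one]

variable (σ n) in
/-- the stabiliser -/
def Sb : Subgroup Mp where
  carrier := {x | x ∈ Gm ∧ act σ x n = n}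
  mul_mem' {x y} hx hy := ⟨mul_mem hx.1 hy.1, by rw [act_mul hx.1 hy.1, hx.2, hy.2]⟩
  one_mem' := ⟨one_mem _, act_one n⟩
  inv_mem' {x} hx := ⟨inv_mem hx.1, by
    conv_lhs => rw [← hx.2, ← act_mul hx.1 (inv_mem hx.1), mul_inv_cancel, act_one]⟩

theorem s4_mem : ss * ss * (ss * ss) ∈ Gm :=
  mul_mem (mul_mem ss_mem ss_mem) (mul_mem ss_mem ss_mem)

theorem sl_s4 {A : Type} (F : ℍ → A → ℂ) : sl 1 (ss * ss * (ss * ss)) F = -F :=
  funext fun τ => by simp [sl, ss_pow.1, ss_pow.2, -Mp.mul_g, -Mp.mul_j]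

theorem s4_sb : ss * ss * (ss * ss) ∈ Sb σ n := by
  have h : Rm N (ss * ss * (ss * ss)) = -1 := Mv_inj (by
    rw [← gd s4_mem]
    funext v τ
    simp only [sw, sl_s4, ss_pow.1, inv_one, Mv, mv, neg_mulVec, one_mulVec, Pi.neg_apply]
    exact congrArg (fun w => -th N w τ) (vecMul_one v))
  refine ⟨s4_mem, act_of s4_mem ?_⟩
  rw [sl_s4, Rs, h, Matrix.map_neg _ (map_neg σ), Matrix.map_one _ σ.map_zero σ.map_one]
  funext τ
  simp only [mv, neg_mulVec, one_mulVec, Pi.neg_apply]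

theorem ker_sb (h : x.g = 1) : x ∈ Sb σ n := by
  rcases isPreconnected_univ.eq_one_or_eq_neg_one_of_sq_eq x.cont.continuousOn
    (fun τ _ => show x.j τ ^ 2 = 1 by rw [x.sq, h, dn_one]) with k | k
  · rw [show x = 1 from Mp.ext h (funext fun τ => k (Set.mem_univ τ))]
    exact one_mem _
  · rw [show x = ss * ss * (ss * ss) from Mp.ext (h.trans ss_pow.1.symm)
      (funext fun τ => (k (Set.mem_univ τ)).trans (ss_pow.2 τ).symm)]
    exact s4_sb

theorem n1_sb (hσ : Sg N u σ) (hT : ∀ τ r, n (ModularGroup.T • τ) r = eQ N u r * n τ r) :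
    nn 1 ∈ Sb σ n := by
  have m : nn 1 ∈ Gm := by simpa using nn_mem 1
  refine ⟨m, act_of m ?_⟩
  have := Rs_nn hσ 1
  rw [Int.cast_one, mul_one] at this
  funext τ r
  simp only [W.sl, mv, this, mulVec_diagonal, nn_j, _root_.one_zpow, one_smul, nn_one, zr_sm, hT]

theorem nn_sb (h : nn 1 ∈ Sb σ n) (z : ℤ) : nn z ∈ Sb σ n := by
  induction z using Int.induction_on with
  | zero => rw [Int.cast_zero, nn_zero]; exact one_mem _
  | succ z ih => rw [Int.cast_add, Int.cast_one, nn_add]; exact mul_mem ih h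
  | pred z ih =>
    rw [Int.cast_sub, Int.cast_one, sub_eq_add_neg, nn_add, ← nn_inv 1]
    exact mul_mem ih (inv_mem h)

theorem row (h : nn 1 ∈ Sb σ n) (hx : x ∈ Gm) (hy : y ∈ Gm) (h0 : x.g 1 0 = y.g 1 0)
    (h1 : x.g 1 1 = y.g 1 1) : act σ x n = act σ y n := by
  have m := mul_mem hx (inv_mem hy)
  obtain ⟨z, hz⟩ := mem_Gm.1 m 0 1
  have a : (x * y⁻¹).g 1 0 = 0 := by
    rw [Mp.mul_g, Mp.inv_g, mul_e, (inv_e _).1, (inv_e _).2.2.1, h0, h1]; ring
  have b : (x * y⁻¹).g 1 1 = 1 := by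
    rw [Mp.mul_g, Mp.inv_g, mul_e, (inv_e _).2.1, (inv_e _).2.2.2, h0, h1]
    linear_combination det_e y.g
  have c := det_e (x * y⁻¹).g
  rw [a, b, mul_one, mul_zero, sub_zero] at c
  have e : (x * y⁻¹).g = (nn z).g := sl_ext c hz a b
  have k : x * y⁻¹ * (nn z)⁻¹ ∈ Sb σ n := ker_sb (by rw [Mp.mul_g, e, Mp.inv_g, mul_inv_cancel])
  have k2 := mul_mem k (nn_sb h z)
  rw [inv_mul_cancel_right] at k2
  rw [← inv_mul_cancel_right x y, act_mul m hy, k2.2]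

theorem ex_lf (v : CP) : ∃ x ∈ Gm, ∀ j, x.g 1 j = v.1 j := by
  obtain ⟨γ, a, b⟩ := ((EisensteinSeries.mem_gammaSet_one _).1 v.2).exists_SL2_row 1
  obtain ⟨x, hx⟩ := ex_lift γ
  refine ⟨x, ⟨γ, hx.symm⟩, fun j => ?_⟩
  rw [hx, zr_e]
  fin_cases j
  · exact congrArg _ a
  · exact congrArg _ b

theorem hol_sm (g : SL(2, ℝ)) {f : ℍ → ℂ} (h : Hol f) : Hol fun τ => f (g • τ) :=
  h.comp (mdifferentiable_smul (g := g) (by simp))

theorem hol_mv (M : Matrix (AA N) (AA N) ℂ) (h : ∀ r, Hol fun τ => F τ r) (r : AA N) :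
    Hol fun τ => (M *ᵥ F τ) r := by
  have := MDifferentiable.sum (t := Finset.univ) fun s _ =>
    (mdifferentiable_const (c := M r s)).mul (h s)
  rwa [Finset.sum_fn] at this

theorem hol_act (hj : Hol x.j) (h : ∀ r, Hol fun τ => F τ r) (r : AA N) :
    Hol fun τ => act σ x F τ r := by
  simp only [act_apply]
  exact (hj.inv x.j_ne).mul (hol_mv _ (fun s => hol_sm x.g (h s)) r)

theorem hol_rt : Hol rt := hol_iff.2 (DifferentiableOn.congr (f := fun z => z ^ (1 / 2 : ℂ))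
  (fun z hz => (differentiableAt_id.cpow_const (.inr (ne_of_gt hz))).differentiableWithinAt)
  fun z hz => by simp only [Function.comp, rt, ofComplex_apply_of_im_pos hz, coe_mk])

theorem hol_all (hσ : Sg N u σ) (h : nn 1 ∈ Sb σ n)
    (hS : ∀ r, Hol fun τ => (n (ModularGroup.S • τ) - rt τ • mS N u *ᵥ n τ) r) (hx : x ∈ Gm) :
    Hol x.j ∧ ∀ r, Hol fun τ => (act σ x n - n) τ r := by
  refine Gm_ind' (P := fun x => Hol x.j ∧ ∀ r, Hol fun τ => (act σ x n - n) τ r) ⟨hol_rt, ?_⟩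
    ⟨mdifferentiable_const, fun r => ?_⟩ (fun a ha b hb p q => ⟨(hol_sm b.g p.1).mul q.1, ?_⟩)
    (fun a ha p => ?_) hx
  · have e : act σ ss n - n = fun τ => (rt τ)⁻¹ • Rs N σ ss⁻¹ *ᵥ
        (n (ModularGroup.S • τ) - rt τ • mS N u *ᵥ n τ) := funext fun τ => by
      rw [mulVec_sub, mulVec_smul, mulVec_mulVec, ← Rs_ss hσ, Rs_inv ss_mem, one_mulVec, smul_sub,
        inv_smul_smul₀ (rt_ne τ), Pi.sub_apply, act_apply, ← zr_sm]
      rfl
    rw [e]
    exact fun r => (hol_rt.inv rt_ne).mul (hol_mv _ hS r)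
  · rw [h.2, sub_self]
    exact mdifferentiable_const
  · have e : act σ (a * b) n - n = act σ b (act σ a n - n) + (act σ b n - n) := by
      rw [act_mul ha hb, act_sub, sub_add_sub_cancel]
    rw [e]
    exact fun r => (hol_act q.1 p.2 r).add (q.2 r)
  · have j : Hol a⁻¹.j := (hol_sm a.g⁻¹ p.1).inv fun _ => a.j_ne _
    have e : act σ a⁻¹ n - n = -act σ a⁻¹ (act σ a n - n) := by
      rw [act_sub, ← act_mul ha (inv_mem ha), mul_inv_cancel, act_one, neg_sub]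
    rw [e]
    exact ⟨j, fun r => (hol_act j p.2 r).neg⟩

theorem im_j (x : Mp) (τ : ℍ) : (x.g • τ).im ^ (1 / 4 : ℝ) = ‖x.j τ‖⁻¹ * τ.im ^ (1 / 4 : ℝ) := by
  rw [im_sm, ← x.sq, normSq_eq_norm_sq, norm_pow, ← pow_mul, Real.div_rpow τ.im_pos.le
    (by positivity), div_eq_inv_mul, show (1 / 4 : ℝ) = ((2 * 2 : ℕ) : ℝ)⁻¹ by norm_num,
    Real.pow_rpow_inv_natCast (norm_nonneg _) (by norm_num)]

theorem act_le (hu : IsCoprime u (2 * N)) (hσ : Sg N u σ) {C : ℝ}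
    (hC : ∀ τ r, ‖n τ r‖ * τ.im ^ (1 / 4 : ℝ) ≤ C) (hx : x ∈ Gm) (τ : ℍ) (r : AA N) :
    ‖act σ x n τ r‖ * τ.im ^ (1 / 4 : ℝ) ≤ Fintype.card (AA N) * C := by
  have un : Rs N σ x⁻¹ ∈ unitaryGroup (AA N) ℂ := mem_unitaryGroup_iff.2 (by
    rw [Rs_un hu hσ hx, star_eq_conjTranspose, conjTranspose_conjTranspose, ← Rs_un hu hσ hx,
      Rs_inv hx])
  rw [act_apply, Pi.smul_apply, norm_smul, norm_inv, mul_right_comm, ← im_j, mul_comm]
  refine (mul_le_mul_of_nonneg_right (norm_sum_le _ _) (by positivity)).trans ?_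
  rw [Finset.sum_mul, ← nsmul_eq_mul, ← Finset.card_univ]
  refine Finset.sum_le_card_nsmul _ _ _ fun s _ => le_trans ?_ (hC (x.g • τ) s)
  rw [norm_mul]
  exact mul_le_mul_of_nonneg_right (mul_le_of_le_one_left (norm_nonneg _)
    (entry_norm_bound_of_unitary un _ _)) (by positivity)

/-- **the holomorphic part exists** -/
theorem kill (hu : IsCoprime u (2 * N)) (hσ : Sg N u σ)
    (hT : ∀ τ r, n (ModularGroup.T • τ) r = eQ N u r * n τ r)
    (hS : ∀ r, Hol fun τ => (n (ModularGroup.S • τ) - rt τ • mS N u *ᵥ n τ) r) {C : ℝ}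
    (hC : ∀ τ r, ‖n τ r‖ * τ.im ^ (1 / 4 : ℝ) ≤ C) : ∃ h : ℍ → AA N → ℂ,
    (∀ r, Hol fun τ => h τ r) ∧
    (∀ r, IsBoundedAtImInfty fun τ : ℍ => cexp (2 * π * I * τ) * h τ r) ∧
    (∀ τ r, h (ModularGroup.T • τ) r = eQ N u r * h τ r) ∧
    ∀ τ, h (ModularGroup.S • τ) + n (ModularGroup.S • τ) = rt τ • mS N u *ᵥ (h τ + n τ) := by
  choose l l1 l2 using ex_lf
  have h1 := n1_sb hσ hT
  obtain ⟨h, a, b, c⟩ := knopp n (fun v => act σ (l v) n)
    (fun v => (hol_all hσ h1 hS (l1 v)).2) fun r B hB =>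
      ⟨(Fintype.card (AA N) * C + C) / B ^ (1 / 4 : ℝ), fun v τ hτ => by
        rw [le_div_iff₀ (by positivity)]
        refine (mul_le_mul (norm_sub_le _ _) (Real.rpow_le_rpow hB.le hτ (by norm_num))
          (by positivity) (by positivity)).trans ?_
        rw [add_mul]
        exact add_le_add (act_le hu hσ hC (l1 v) τ r) (hC τ r)⟩
  have law : ∀ (y : Mp) (γ : SL(2, ℤ)), y.g = zr γ → ∀ τ,
      h (γ • τ) + n (γ • τ) = y.j τ • Rs N σ y *ᵥ (h τ + n τ) := fun y γ hy τ => by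
    have m : y ∈ Gm := ⟨γ, hy.symm⟩
    rw [← smul_mulVec]
    refine c γ _ τ fun v => ?_
    have e : ∀ j, (l (rm γ v)).g 1 j = (l v * y).g 1 j := fun j => by
      rw [l2, rm_val, Mp.mul_g, mul_e, l2, l2, hy, zr_e, zr_e, vecMul, dotProduct, Fin.sum_univ_two]
      push_cast
      rfl
    rw [row h1 (l1 _) (mul_mem (l1 v) m) (e 0) (e 1), act_mul (l1 v) m, act_apply y, mulVec_smul,
      smul_mulVec, inv_smul_smul₀ (y.j_ne τ), mulVec_mulVec, ← Rs_mul m (inv_mem m),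
      mul_inv_cancel, Rs_one, one_mulVec, hy, zr_sm]
  refine ⟨h, a, b, fun τ r => ?_, fun τ => Rs_ss hσ ▸ law ss _ rfl τ⟩
  have k := congrFun (law (nn 1) _ nn_one τ) r
  have := Rs_nn hσ 1
  rw [Int.cast_one, mul_one] at this
  rw [this, nn_j, one_smul, mulVec_diagonal, Pi.add_apply, Pi.add_apply, hT, mul_add] at k
  exact add_right_cancel k

end Vale.Agent.P004Z.Du.Harm
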