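import Vale.Agent.P004Z.Du.Pets

/-! # P004Z, block G2: row PAIR -/

set_option linter.all false

open Complex MeasureTheory Filter Topology Set Metric
open scoped Real ComplexConjugate

noncomputable section

namespace Vale.Agent.P004Z

namespace Du.Pe

variable {N : ℕ} [NeZero N] {δ : ℕ} {τ : ℂ} {a : ℤ → ZMod (2 * N) → ℂ} {x y : Cf N} {c : PP N}

/-- the holomorphic part -/
def hol (a : ℤ → ZMod (2 * N) → ℂ) (r : ZMod (2 * N)) (τ : ℂ) : ℂ :=
  ∑' n : ℤ, a n r * ee (n * τ / (4 * N))

theorem hf_eq (r) : hf a x r = fun τ => hol a r τ + nh x r τ := rfl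

theorem hol_diff (h : Harm δ a x c) (r) : DifferentiableOn ℂ (hol a r) {τ | 0 < τ.im} :=
  qs_diff (k := id) (h.sum r)

theorem hol_T (o : Ok N δ) (h : Harm δ a x c) (r) (τ : ℂ) :
    hol a r (τ + 1) = conj (tm N δ r) * hol a r τ := by
  rw [hol, hol, ← tsum_mul_left]
  refine tsum_congr fun n => ?_
  by_cases e : a n r = 0
  · simp [e]
  rw [← (tm_iff' o n r).2 (h.sup n r e), mul_left_comm, ← ee_add]
  congr 2
  ring

theorem hf_md (o : Ok N δ) (h : Harm δ a x c) : Md δ 0 (hf a x) :=
  ⟨fun τ _ r => by simp only [hf_eq, hol_T o h, nh_T o h.s, mul_add], by simpa using h.law⟩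

theorem nh_sym (K : Kp N δ) (h : IsS δ x) (p : 0 < τ.im) (r) : nh x (-r) τ = eps δ * nh x r τ := by
  simp only [nh_eq, J, mul_neg, ← integral_const_mul]
  refine congrArg _ (setIntegral_congr_fun measurableSet_Ioi fun σ s => ?_)
  simp only [Pe.K]
  rw [fn_sym K h (by rw [im2]; linarith [show 0 < σ from s]), map_mul, map_intCast, mul_left_comm]

theorem a_sym (K : Kp N δ) (h : Harm δ a x c) (n r) : a n (-r) = eps δ * a n r := by
  refine sub_eq_zero.1 (congrFun (qs_uq (N := N) (k := id)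
    (a := fun n => a n (-r) - eps δ * a n r) Function.injective_id (fun τ p => ?_) fun τ p => ?_) n)
  · refine ((h.sum (-r) τ p).add ((h.sum r τ p).mul_left ‖(eps δ : ℂ)‖)).of_nonneg_of_le
      (fun _ => norm_nonneg _) fun n => ?_
    rw [sub_mul, mul_assoc, ← norm_mul]
    exact norm_sub_le _ _
  · simp only [sub_mul, mul_assoc, id]
    rw [(h.sum _ τ p).of_norm.tsum_sub ((h.sum r τ p).of_norm.mul_left _), tsum_mul_left]
    have := K.sym (hf_md K.ok h) p r
    simp only [hf] at this
    linear_combination this - nh_sym K h.s p r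

theorem adm (K : Kp N δ) (h : Harm δ a x c) : Adm δ c := by
  refine ⟨h.zero, fun n r e => ?_, fun n r => ?_⟩ <;> rcases n.eq_zero_or_pos with rfl | p
  · exact (e (h.zero r)).elim
  · exact neg_neg (n : ℤ) ▸ h.sup _ r (h.pp n r p ▸ e)
  · simp [h.zero]
  · rw [h.pp n _ p, h.pp n _ p, a_sym K h]

omit [NeZero N] in
theorem hol_der {f : ℂ → ℂ} (h : DifferentiableOn ℂ f {τ | 0 < τ.im}) (p : 0 < τ.im) :
    HasFDerivAt f (LL 0 (deriv f τ)) τ :=
  ((h.differentiableAt (nh_lt p)).hasDerivAt.hasFDerivAt.restrictScalars ℝ).congr_fderiv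
    (ContinuousLinearMap.ext fun w => by simp [LL_apply, mul_comm])

omit [NeZero N] in
theorem hol_c1 {f : ℂ → ℂ} (h : DifferentiableOn ℂ f {τ | 0 < τ.im}) :
    ContDiffOn ℝ 1 f {τ | 0 < τ.im} := (h.contDiffOn oH).restrict_scalars ℝ

theorem hf_c1 (h : Harm δ a x c) (r) : ContDiffOn ℝ 1 (hf a x r) {τ | 0 < τ.im} :=
  (hol_c1 (hol_diff h r)).add (nh_c1 h.s r)

theorem lo_pair (h : Harm δ a x c) (s : IsS δ y) (p : 0 < τ.im) :
    Lo (fun τ => ∑ r, fn y r τ * hf a x r τ) τ =
      (∑ r, fn y r τ * conj (fn x r τ)) * (τ.im ^ (-(1 / 2) : ℝ) : ℝ) := by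
  simp only [hf_eq]
  rw [Lo, (HasFDerivAt.fun_sum fun r _ => (hol_der (fn_dec s r).diff p).fun_mul
    ((hol_der (hol_diff h r) p).fun_add (nh_der h.s r p))).fderiv]
  simp only [ContinuousLinearMap.sum_apply, Finset.mul_sum, Finset.sum_mul, ← Finset.sum_sub_distrib]
  refine Finset.sum_congr rfl fun r _ => ?_
  simp [LL_apply]
  ring

theorem ct_pair (o : Ok N δ) (h : Harm δ a x c) (s : IsS δ y) {T : ℝ} (p : 0 < T) (r) :
    HasSum (fun n => c (n, r) * y n r)
      (∫ u in (-(1 / 2) : ℝ)..(1 / 2), fn y r (u + I * T) * hol a r (u + I * T)) := by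
  have d : ∀ (n : ℕ) m, y n r = 0 ∨ a m r = 0 ∨ ∃ j, n + m = 4 * N * j := fun n m => by
    by_contra! e
    obtain ⟨j, b⟩ := In.dvd o (s.sup n r e.1) (h.sup m r e.2.1)
    exact e.2.2 j (by rw [← b]; ring)
  have n0 : (4 * N : ℤ) ≠ 0 := by simpa using NeZero.ne N
  have n1 := N_ne (N := N)
  have b := ct (k := fun i : ℕ × ℤ => (i.1 + i.2) / (4 * N))
    ((s.sum r (I * T) (by simpa using p)).mul_norm (h.sum r (I * T) (by simpa using p)))
  rw [← Function.Injective.hasSum_iff (g := fun n : ℕ => (n, -(n : ℤ)))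
    (fun _ _ e => congrArg Prod.fst e) fun i e => ?_] at b
  · refine Eq.mp (congrArg₂ (HasSum · ·) (funext fun n => ?_) ?_) b
    · rcases n.eq_zero_or_pos with rfl | q
      · simp [s.zero]
      · simp only [Function.comp, add_neg_cancel, Int.zero_ediv, if_true, h.pp n r q]
        rw [mul_mul_mul_comm, ← ee_add, mul_comm (y n r), show _ + _ = (0 : ℂ) by push_cast; ring,
          ee_zero, mul_one]
    · refine intervalIntegral.integral_congr fun u _ => ?_
      simp only [fn, hol]
      rw [tsum_mul_tsum_of_summable_norm (s.sum r _ (by simpa using p))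
        (h.sum r _ (by simpa using p))]
      refine tsum_congr fun i => ?_
      obtain e | e | ⟨j, e⟩ := d i.1 i.2
      · simp [e]
      · simp [e]
      rw [e, Int.mul_ediv_cancel_left _ n0, mul_mul_mul_comm, mul_mul_mul_comm (y _ _) (ee _),
        mul_assoc, ← ee_add, ← ee_add, ← ee_add]
      congr 2
      have := congrArg (Int.cast : ℤ → ℂ) e
      push_cast at this
      field_simp
      linear_combination -u * this
  · obtain f | f | ⟨j, f⟩ := d i.1 i.2
    · simp [f]
    · simp [f]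
    refine if_neg fun q => e ⟨i.1, Prod.ext rfl ?_⟩
    rw [f, Int.mul_ediv_cancel_left _ n0] at q
    rw [q] at f
    simp only
    omega

theorem pr_eq (K : Kp N δ) (S : STK) (h : Harm δ a x c) (s : IsS δ y) :
    pr y c = pet (fn y) (fn x) := by
  obtain ⟨C, c1, c2⟩ := fn_le s
  obtain ⟨D, d1, d2⟩ := nh_le h.s
  have m : ∀ T, MeasurableSet (FT T) := fun T => (Sk.compact_FT T).measurableSet
  have u : ⋃ T, FT T = FD := Subset.antisymm (iUnion_subset fun T => inter_subset_left)
    fun τ p => mem_iUnion.2 ⟨τ.im, p, le_refl τ.im⟩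
  have l := tendsto_setIntegral_of_monotone m (fun T T' b τ p => ⟨p.1, p.2.trans b⟩)
    (u ▸ den_int s h.s)
  rw [u] at l
  refine (tendsto_nhds_unique l (tendsto_iff_norm_sub_tendsto_zero.2 (squeeze_zero_norm'
    (a := fun T => (∑ _r : ZMod (2 * N), C * D) * Real.exp (-(π / (2 * N)) * T))
    ((eventually_ge_atTop 1).mono fun T p => ?_) ?_))).symm
  · have q : ∀ u : ℝ, 0 < (u + I * T).im := fun u => by simpa using one_pos.trans_le p
    have i : ∀ f : ℂ → ℂ, ContinuousOn f {τ | 0 < τ.im} → Continuous fun u : ℝ => f (u + I * T) :=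
      fun f b => b.comp_continuous (by fun_prop) q
    have e := (hasSum_sum fun r (_ : r ∈ Finset.univ) => ct_pair K.ok h s (one_pos.trans_le p) r).unique
      ((hasSum_sum_of_ne_finset_zero (f := fun i : ℕ × ZMod (2 * N) => c i * y i.1 i.2)
        (s := c.support) fun i b => by simp [Finsupp.notMem_support_iff.1 b]).prod_fiberwise
        fun n => hasSum_fintype _)
    have y1 := fun r => i _ (fn_dec s r).diff.continuousOn
    have y2 := fun r => (y1 r).fun_mul (i _ (hol_diff h r).continuousOn)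
    rw [norm_norm, ← setIntegral_congr_fun (m T) fun τ b => lo_pair h s b.1.2.2,
      S _ (ContDiffOn.sum fun r _ => (hol_c1 (fn_dec s r).diff).mul (hf_c1 h r)) (fun τ b => ⟨?_, ?_⟩)
      T p, pr, Finsupp.sum, ← e, ← intervalIntegral.integral_finsetSum fun r _ =>
        (y2 r).intervalIntegrable _ _,
      ← intervalIntegral.integral_sub ((continuous_finsetSum _ fun r _ => (y1 r).fun_mul
        (i _ (hf_c1 h r).continuousOn)).intervalIntegrable _ _)
        ((continuous_finsetSum _ fun r _ => y2 r).intervalIntegrable _ _)]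
    · refine (intervalIntegral.norm_integral_le_of_norm_le_const fun u _ => ?_).trans_eq
        (by rw [show |(1 / 2 - -(1 / 2) : ℝ)| = 1 by norm_num, mul_one])
      have t : 1 / 2 ≤ (u + I * T).im := by simp; linarith
      simp only [hf_eq, mul_add, Finset.sum_add_distrib, add_sub_cancel_left, Finset.sum_mul]
      refine (norm_sum_le _ _).trans (Finset.sum_le_sum fun r _ => ?_)
      rw [norm_mul, mul_assoc]
      refine mul_le_mul ((c2 r _ t).trans (mul_le_of_le_one_right c1 (Real.exp_le_one_iff.2 ?_)))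
        (by simpa using d2 r _ t) (norm_nonneg _) c1
      nlinarith [c_pos (N := N)]
    · refine Finset.sum_congr rfl fun r _ => ?_
      rw [fn_T K.ok s, (hf_md K.ok h).T τ b, mul_mul_mul_comm, tm_conj, one_mul]
    · simp only [s.law τ b, h.law τ b, mul_mul_mul_comm (τ ^ 2 / hw τ), ← Finset.mul_sum, K.pair,
        div_mul_cancel₀ _ (hw_ne b)]
  · simpa using (Real.tendsto_exp_atBot.comp (tendsto_id.const_mul_atTop_of_neg
      (neg_neg_of_pos (c_pos (N := N))))).const_mul _

end Du.Pe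

open Du Du.Pe

theorem pair (P : PHI) (S : STK) : PAIR := fun N _ δ o a x c h =>
  ⟨adm (kp P o) h, fun y s => pr_eq (kp P o) S h s⟩

end Vale.Agent.P004Z
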