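import Vale.Agent.P004Z.Du.Dec
import Vale.Agent.P004Z.Sk.Stk

/-! # P004Z, block G2: rows PETS and HFB -/

set_option linter.all false

open Complex MeasureTheory Filter Topology Set Metric
open scoped Real ComplexConjugate MatrixGroups UpperHalfPlane

noncomputable section

namespace Vale.Agent.P004Z

namespace Du.Pe

variable {N : ℕ} [NeZero N] {δ : ℕ} {ι : Type} {a : ι → ℂ} {k : ι → ℤ} {τ : ℂ}

theorem nt (a : ℂ) (k : ℤ) (τ : ℂ) :
    ‖a * ee (k * τ / (4 * N))‖ = ‖a‖ * Real.exp (-(k * (π / (2 * N))) * τ.im) := by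
  rw [norm_mul, norm_ee, show (k * τ / (4 * N) : ℂ) = ((k / (4 * N) : ℝ) : ℂ) * τ by push_cast; ring,
    im_ofReal_mul]
  congr 2
  ring

theorem qs_diff (h : ∀ τ : ℂ, 0 < τ.im → Summable fun i => ‖a i * ee (k i * τ / (4 * N))‖) :
    DifferentiableOn ℂ (fun τ => ∑' i, a i * ee (k i * τ / (4 * N))) {τ | 0 < τ.im} := fun τ p => by
  have p : 0 < τ.im := p
  have o : IsOpen ({z : ℂ | τ.im / 2 < z.im} ∩ {z | z.im < 2 * τ.im}) :=
    (isOpen_lt continuous_const continuous_im).inter (isOpen_lt continuous_im continuous_const)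
  refine ((differentiableOn_tsum_of_summable_norm ((h (τ / 2) (by simpa using p)).add
    (h (2 * τ) (by simpa using p))) (fun i => Differentiable.differentiableOn (by unfold ee; fun_prop))
    o fun i w m => ?_).differentiableAt (o.mem_nhds ⟨half_lt_self p, by
      show τ.im < _; linarith⟩)).differentiableWithinAt
  have m1 : τ.im / 2 < w.im := m.1
  have m2 : w.im < 2 * τ.im := m.2
  rw [nt, nt, nt, ← mul_add]
  refine mul_le_mul_of_nonneg_left ?_ (norm_nonneg _)
  rcases le_total (k i * (π / (2 * N)) : ℝ) 0 with b | b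
  · exact le_add_of_nonneg_of_le (Real.exp_pos _).le (Real.exp_le_exp.2 (by simp; nlinarith))
  · exact le_add_of_le_of_nonneg (Real.exp_le_exp.2 (by simp; nlinarith)) (Real.exp_pos _).le

theorem c_pos : 0 < π / (2 * N) := by
  have := NeZero.pos N
  positivity

theorem qs_dec (h : ∀ τ : ℂ, 0 < τ.im → Summable fun i => ‖a i * ee (k i * τ / (4 * N))‖)
    (p : ∀ i, a i ≠ 0 → 1 ≤ k i) :
    Dec (π / (2 * N)) fun τ => ∑' i, a i * ee (k i * τ / (4 * N)) := ⟨c_pos, qs_diff h, fun v hv => by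
  have s := h (I * v) (by simpa using hv)
  refine ⟨(∑' i, ‖a i * ee (k i * (I * v) / (4 * N))‖) * Real.exp (π / (2 * N) * v),
    mul_nonneg (tsum_nonneg fun _ => norm_nonneg _) (Real.exp_pos _).le, fun τ b => ?_⟩
  rw [mul_assoc]
  refine tsum_of_norm_bounded (s.hasSum.mul_right _) fun i => ?_
  by_cases e : a i = 0
  · simp [e]
  have : (1 : ℝ) ≤ k i := by exact_mod_cast p i e
  rw [nt, nt, mul_assoc, ← Real.exp_add, ← Real.exp_add]
  gcongr
  simp
  nlinarith [mul_nonneg (mul_nonneg (sub_nonneg.2 this) (c_pos (N := N)).le) (sub_nonneg.2 b)]⟩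

omit [NeZero N] in
/-- the constant term -/
theorem ct [Countable ι] (h : Summable fun i => ‖a i‖) : HasSum (fun i => if k i = 0 then a i else 0)
    (∫ u in (-(1 / 2) : ℝ)..(1 / 2), ∑' i, a i * ee (k i * u)) := by
  rw [intervalIntegral.integral_of_le (by norm_num)]
  refine (hasSum_integral_of_summable_integral_norm (F := fun i (u : ℝ) => a i * ee (k i * u))
    (fun i => Continuous.integrableOn_Ioc (by unfold ee; fun_prop)) ?_).congr_fun fun i => ?_
  · norm_num [norm_ee, h]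
  · rw [← intervalIntegral.integral_of_le (by norm_num), intervalIntegral.integral_const_mul]
    split_ifs with e
    · norm_num [e]
    · simp only [ee, ← mul_assoc]
      rw [integral_exp_mul_complex (by simp [e]), mul_assoc _ (k i : ℂ), mul_assoc _ (k i : ℂ), ← ee,
        ← ee, ee_congr (k i) (y := k i * (-(1 / 2) : ℝ)) (by push_cast; ring)]
      simp

theorem qs_uq (i : k.Injective)
    (h : ∀ τ : ℂ, 0 < τ.im → Summable fun i => ‖a i * ee (k i * τ / (4 * N))‖)
    (z : ∀ τ : ℂ, 0 < τ.im → ∑' i, a i * ee (k i * τ / (4 * N)) = 0) : a = 0 := funext fun j => by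
  classical
  have := i.countable
  have b := ct (k := fun i => k i - k j) (h I (by simp))
  have e : ∀ u : ℝ, ∑' i, a i * ee (k i * I / (4 * N)) * ee ((k i - k j : ℤ) * u) = 0 := fun u => by
    rw [← zero_mul (ee (-k j * u)), ← z (4 * N * u + I) (by simp), ← tsum_mul_right]
    refine tsum_congr fun i => ?_
    rw [mul_assoc, mul_assoc, ← ee_add, ← ee_add]
    have := N_ne (N := N)
    congr 2
    push_cast
    field_simp
    ring
  simp only [e, sub_eq_zero, i.eq_iff, intervalIntegral.integral_zero] at b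
  simpa [ee_ne] using (hasSum_single j fun i c => if_neg c).unique b

variable {x y : Cf N}

theorem fn_dec (h : IsS δ x) (r) : Dec (π / (2 * N)) (fn x r) := by
  unfold fn
  simpa using qs_dec (N := N) (k := Nat.cast) (a := (x · r)) (by simpa only [Int.cast_natCast] using h.sum r)
    fun n e => by exact_mod_cast Nat.pos_of_ne_zero fun b : n = 0 => e (b ▸ h.zero r)

theorem fn_uq (h : ∀ r (τ : ℂ), 0 < τ.im → Summable fun n : ℕ => ‖x n r * ee (n * τ / (4 * N))‖) {r}
    (z : ∀ τ : ℂ, 0 < τ.im → fn x r τ = 0) (n : ℕ) : x n r = 0 :=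
  congrFun (qs_uq (N := N) (k := Nat.cast) (a := (x · r)) Nat.cast_injective
    (by simpa only [Int.cast_natCast] using h r) (by simpa only [Int.cast_natCast, fn] using z)) n

theorem fn_T (o : Ok N δ) (h : IsS δ x) (r) (τ : ℂ) : fn x r (τ + 1) = tm N δ r * fn x r τ := by
  rw [fn, fn, ← tsum_mul_left]
  refine tsum_congr fun n => ?_
  by_cases e : x n r = 0
  · simp [e]
  rw [← (tm_iff o n r).2 (h.sup n r e), mul_left_comm, ← ee_add]
  congr 2
  push_cast
  ring

theorem fn_sym (K : Kp N δ) (h : IsS δ x) (p : 0 < τ.im) (r) : fn x (-r) τ = eps δ * fn x r τ := by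
  have e := h.law _ (im_S p) (-r)
  simp only [S_S p, h.law τ p, mul_left_comm _ (τ ^ 2 / hw τ), ← Finset.mul_sum, K.sm2, neg_neg] at e
  have := ne0 p
  have := hw_ne p
  rw [e, eq_inv_of_mul_eq_one_right (hw_mul p)]
  field_simp

theorem all_le {c : ℝ} {g : ZMod (2 * N) → ℂ → ℂ}
    (h : ∀ r, ∃ C, 0 ≤ C ∧ ∀ τ : ℂ, 1 / 2 ≤ τ.im → ‖g r τ‖ ≤ C * Real.exp (-c * τ.im)) :
    ∃ C, 0 ≤ C ∧ ∀ r (τ : ℂ), 1 / 2 ≤ τ.im → ‖g r τ‖ ≤ C * Real.exp (-c * τ.im) := by
  choose C a b using h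
  exact ⟨∑ r, C r, Finset.sum_nonneg fun r _ => a r, fun r τ p => (b r τ p).trans (by
    gcongr
    exact Finset.single_le_sum (fun r _ => a r) (Finset.mem_univ r))⟩

theorem fn_le (h : IsS δ x) : ∃ C, 0 ≤ C ∧ ∀ r (τ : ℂ), 1 / 2 ≤ τ.im →
    ‖fn x r τ‖ ≤ C * Real.exp (-(π / (2 * N)) * τ.im) :=
  all_le fun r => (fn_dec h r).bd _ one_half_pos

omit [NeZero N] in
theorem FD_im (h : τ ∈ FD) : 1 / 2 ≤ τ.im := by
  have a := sq_le_sq' (abs_le.1 h.1).1 (abs_le.1 h.1).2
  have b := one_le_pow₀ (n := 2) h.2.1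
  rw [Complex.sq_norm, normSq_apply] at b
  exact le_of_sq_le_sq (by nlinarith) h.2.2.le

omit [NeZero N] in
/-- reduction to the fundamental domain -/
theorem red {A : Type} {E : ℂ → A} (hT : ∀ τ : ℂ, 0 < τ.im → E (τ + 1) = E τ)
    (hS : ∀ τ : ℂ, 0 < τ.im → E (-1 / τ) = E τ) (p : 0 < τ.im) : ∃ z ∈ FD, E z = E τ := by
  have e : ∀ g : SL(2, ℤ), ∀ z : ℍ, E (g • z : ℍ) = E z := fun g => by
    have : g ∈ Subgroup.closure {ModularGroup.S, ModularGroup.T} := by
      simp [SpecialLinearGroup.SL2Z_generators]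
    induction this using Subgroup.closure_induction with
    | one => simp
    | mem g b =>
      rcases b with rfl | rfl <;> intro z
      · rw [UpperHalfPlane.modular_S_smul, ← hS z z.2, neg_div, one_div, ← inv_neg]
      · rw [UpperHalfPlane.modular_T_smul, ← hT z z.2, UpperHalfPlane.coe_vadd, add_comm, ofReal_one]
    | mul g j _ _ b c => exact fun z => by rw [mul_smul, b, c]
    | inv g _ b => exact fun z => by rw [← b, smul_inv_smul]
  obtain ⟨g, b⟩ := ModularGroup.exists_smul_mem_fd ⟨τ, p⟩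
  exact ⟨_, ⟨b.2, by simpa [normSq_eq_norm_sq] using b.1, (g • (⟨τ, p⟩ : ℍ)).2⟩, e g _⟩

omit [NeZero N] in
theorem int_FD {f : ℂ → ℂ} {c C : ℝ} (hc : 0 < c) (h : ContinuousOn f {τ | 0 < τ.im})
    (b : ∀ τ : ℂ, 1 / 2 ≤ τ.im → ‖f τ‖ ≤ C * Real.exp (-c * τ.im)) : IntegrableOn f FD := by
  have m := Sk.closed_FD.measurableSet
  have e : IntegrableOn (fun z : ℝ × ℝ => C * Real.exp (-c * z.2)) (Icc (-(1 / 2)) (1 / 2) ×ˢ Ioi 0) := by
    rw [IntegrableOn, Measure.volume_eq_prod, ← Measure.prod_restrict]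
    exact Integrable.mul_prod (f := fun _ => C) (continuous_const.integrableOn_Icc)
      (exp_neg_integrableOn_Ioi 0 hc)
  exact (((volume_preserving_equiv_real_prod.integrableOn_comp_preimage
    measurableEquivRealProd.measurableEmbedding).2 e).mono_set fun z p => ⟨abs_le.1 p.1, p.2.2⟩).mono'
    ((h.mono fun z p => p.2.2).aestronglyMeasurable m) (ae_restrict_of_forall_mem m fun z p => b z (FD_im p))

omit [NeZero N] in
theorem pw_cont (p : ℝ) : ContinuousOn (fun τ : ℂ => ((τ.im ^ p : ℝ) : ℂ)) {τ | 0 < τ.im} :=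
  continuous_ofReal.comp_continuousOn (continuous_im.continuousOn.rpow_const fun z b => .inl (ne_of_gt b))

theorem den_cont (h : IsS δ x) (h' : IsS δ y) : ContinuousOn (fun τ : ℂ =>
    (∑ r, fn x r τ * conj (fn y r τ)) * (τ.im ^ (-(1 / 2) : ℝ) : ℝ)) {τ | 0 < τ.im} :=
  (continuousOn_finsetSum _ fun r _ => (fn_dec h r).diff.continuousOn.mul
    (continuous_conj.comp_continuousOn (fn_dec h' r).diff.continuousOn)).mul (pw_cont _)

theorem den_int (h : IsS δ x) (h' : IsS δ y) : IntegrableOn (fun τ : ℂ =>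
    (∑ r, fn x r τ * conj (fn y r τ)) * (τ.im ^ (-(1 / 2) : ℝ) : ℝ)) FD := by
  obtain ⟨C, a, b⟩ := fn_le h
  obtain ⟨D, c, d⟩ := fn_le h'
  refine int_FD (c_pos (N := N)) (den_cont h h') (C := (∑ _r : ZMod (2 * N), C * D) * (1 / 2) ^ (-(1 / 2) : ℝ))
    fun τ p => ?_
  rw [norm_mul, norm_real, Real.norm_of_nonneg (by positivity), mul_right_comm, Finset.sum_mul]
  refine mul_le_mul ((norm_sum_le _ _).trans (Finset.sum_le_sum fun r _ => ?_))
    (Real.rpow_le_rpow_of_nonpos one_half_pos p (by norm_num)) (by positivity) (by positivity)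
  rw [norm_mul, norm_conj, mul_right_comm]
  refine mul_le_mul (b r τ p) ((d r τ p).trans (mul_le_of_le_one_right c (Real.exp_le_one_iff.2 ?_)))
    (norm_nonneg _) (by positivity)
  nlinarith [c_pos (N := N)]

theorem fn_bd (K : Kp N δ) (h : IsS δ x) :
    ∃ C : ℝ, ∀ r (τ : ℂ), 0 < τ.im → ‖fn x r τ‖ * τ.im ^ (3 / 4 : ℝ) ≤ C := by
  obtain ⟨C, a, b⟩ := fn_le h
  have c := c_pos (N := N)
  refine ⟨1 + (∑ _r : ZMod (2 * N), C ^ 2) ^ 2 * (6 / (π / (2 * N)) ^ 3), fun r τ p => ?_⟩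
  obtain ⟨z, m, e⟩ := red (E := fun τ => (∑ r, ‖fn x r τ‖ ^ 2) ^ 2 * τ.im ^ 3)
    (fun τ _ => by simp [fn_T K.ok h, norm_tm]) (fun τ p => by
      have e := K.pair (fn x · τ) fun r => conj (fn x r τ)
      simp only [← map_mul, ← map_sum, mul_conj, normSq_eq_norm_sq] at e
      have n := norm_pos_iff.2 (ne0 p)
      simp only [h.law τ p, norm_mul, mul_pow, ← Finset.mul_sum, norm_div, div_pow, norm_hw, norm_pow]
      rw [show ∑ r, ‖∑ s, sm N δ r s * fn x s τ‖ ^ 2 = ∑ r, ‖fn x r τ‖ ^ 2 by exact_mod_cast e]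
      simp [div_im, normSq_eq_norm_sq]
      field_simp) p
  have q := FD_im m
  have u : (‖fn x r τ‖ * τ.im ^ (3 / 4 : ℝ)) ^ 4 ≤ (∑ r, ‖fn x r τ‖ ^ 2) ^ 2 * τ.im ^ 3 := by
    rw [mul_pow, ← Real.rpow_natCast (_ ^ _), ← Real.rpow_mul p.le, show (4 : ℕ) = 2 * 2 from rfl,
      pow_mul, show (3 / 4 * (2 * 2 : ℕ) : ℝ) = (3 : ℕ) by norm_num, Real.rpow_natCast]
    gcongr
    exact Finset.single_le_sum (f := fun r => ‖fn x r τ‖ ^ 2) (fun _ _ => by positivity)
      (Finset.mem_univ r)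
  have w : (∑ r, ‖fn x r z‖ ^ 2) ^ 2 * z.im ^ 3 ≤
      (∑ _r : ZMod (2 * N), C ^ 2) ^ 2 * (6 / (π / (2 * N)) ^ 3) := by
    have t := Real.pow_div_factorial_le_exp (π / (2 * N) * z.im) (by positivity) 3
    have s : Real.exp (-(π / (2 * N)) * z.im) ≤ 1 := Real.exp_le_one_iff.2 (by nlinarith)
    calc _ ≤ (∑ _r : ZMod (2 * N), (C * Real.exp (-(π / (2 * N)) * z.im)) ^ 2) ^ 2 * z.im ^ 3 := by
          gcongr with r
          exact b r z q
      _ = (∑ _r : ZMod (2 * N), C ^ 2) ^ 2 * (Real.exp (-(π / (2 * N)) * z.im) ^ 3 *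
          (Real.exp (-(π / (2 * N)) * z.im) * z.im ^ 3)) := by
          simp only [mul_pow, ← Finset.sum_mul]
          ring
      _ ≤ _ := by
          gcongr
          refine (mul_le_of_le_one_left (by positivity) (pow_le_one₀ (by positivity) s)).trans ?_
          rw [neg_mul, Real.exp_neg, inv_mul_le_iff₀ (by positivity), ← mul_div_assoc,
            le_div_iff₀ (by positivity)]
          norm_num [Nat.factorial, mul_pow] at t ⊢
          linarith
  have := (u.trans e.ge).trans w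
  nlinarith [sq_nonneg ((‖fn x r τ‖ * τ.im ^ (3 / 4 : ℝ)) ^ 2 - 1 / 2),
    sq_nonneg (‖fn x r τ‖ * τ.im ^ (3 / 4 : ℝ) - 1 / 2)]

theorem pet_def (h : IsS δ x) (z : pet (fn x) (fn x) = 0) : x = 0 := by
  have i := den_int h h
  have c := den_cont h h
  simp only [pet, mul_conj, ← ofReal_sum, ← ofReal_mul] at z i c
  rw [integral_complex_ofReal, ofReal_eq_zero, setIntegral_eq_zero_iff_of_nonneg_ae
    (ae_restrict_of_forall_mem Sk.closed_FD.measurableSet fun τ p => mul_nonneg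
      (Finset.sum_nonneg fun _ _ => normSq_nonneg _) (Real.rpow_nonneg p.2.2.le _))
    (i.re.congr (by simp))] at z
  have o : IsOpen ({τ : ℂ | |τ.re| < 1 / 2} ∩ {τ | 1 < τ.im}) :=
    (isOpen_lt (by fun_prop) continuous_const).inter (isOpen_lt continuous_const continuous_im)
  have e := Measure.eqOn_open_of_ae_eq (ae_restrict_of_ae_restrict_of_subset (t := FD) (fun τ p =>
    ⟨le_of_lt p.1, (le_of_lt p.2).trans (im_le_norm τ), one_pos.trans p.2⟩) z) o
    ((continuous_re.comp_continuousOn c).mono fun τ p => show 0 < τ.im from one_pos.trans p.2)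
    continuousOn_const
  refine funext fun n => funext fun r => fn_uq h.sum (fun τ p =>
    ((fn_dec h r).diff.analyticOnNhd oH).eqOn_zero_of_preconnected_of_eventuallyEq_zero
      (convex_halfSpace_im_gt 0).isPreconnected (z₀ := 2 * I) (by simp)
      (eventually_of_mem (o.mem_nhds (by simp)) fun w q => ?_) p) n
  exact normSq_eq_zero.1 ((Finset.sum_eq_zero_iff_of_nonneg fun _ _ => normSq_nonneg _).1
    ((mul_eq_zero.1 (e q)).resolve_right (Real.rpow_pos_of_pos (one_pos.trans q.2) _).ne') r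
    (Finset.mem_univ r))

theorem cf_sym (K : Kp N δ) (h : IsS δ x) (n r) : x n (-r) = eps δ * x n r := by
  refine sub_eq_zero.1 (fn_uq (x := fun n r => x n (-r) - eps δ * x n r) (fun r τ p => ?_)
    (fun τ p => ?_) n)
  · refine ((h.sum (-r) τ p).add ((h.sum r τ p).mul_left ‖(eps δ : ℂ)‖)).of_nonneg_of_le
      (fun _ => norm_nonneg _) fun n => ?_
    rw [sub_mul, mul_assoc, ← norm_mul]
    exact norm_sub_le _ _
  · simp only [fn, sub_mul, mul_assoc]
    rw [(h.sum _ τ p).of_norm.tsum_sub ((h.sum r τ p).of_norm.mul_left _), tsum_mul_left]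
    exact sub_eq_zero.2 (fn_sym K h p r)

omit [NeZero N] in
theorem nh_eq (x : Cf N) (r) : nh x r = fun τ => -J (-(1 / 2)) (fn x r) τ := funext fun τ => by
  rw [nh, J, ← (measurePreserving_add_left volume τ.im).setIntegral_preimage_emb
    (measurableEmbedding_addLeft _), preimage_const_add_Ioi, sub_self]
  refine congrArg _ (setIntegral_congr_fun measurableSet_Ioi fun σ _ => ?_)
  simp only [K]
  congr 3
  simp [Complex.ext_iff]
  ring

theorem nh_der (h : IsS δ x) (r) (p : 0 < τ.im) : HasFDerivAt (nh x r)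
    (LL ((τ.im ^ (-(1 / 2) : ℝ) : ℝ) * conj (fn x r τ)) (-J (-(1 / 2)) (deriv (fn x r)) τ)) τ := by
  rw [nh_eq]
  exact (J_der (fn_dec h r) (by norm_num) p).neg.congr_fderiv
    (ContinuousLinearMap.ext fun w => by simp [LL_apply]; ring)

theorem nh_c1 (h : IsS δ x) (r) : ContDiffOn ℝ 1 (nh x r) {τ | 0 < τ.im} := by
  rw [nh_eq]
  exact (J_c1 (fn_dec h r) (by norm_num)).neg

theorem nh_le (h : IsS δ x) : ∃ C, 0 ≤ C ∧ ∀ r (τ : ℂ), 1 / 2 ≤ τ.im →
    ‖nh x r τ‖ ≤ C * Real.exp (-(π / (2 * N)) * τ.im) :=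
  all_le fun r => by simpa only [nh_eq, norm_neg] using J_le (fn_dec h r) (by norm_num) one_half_pos

theorem nh_T (o : Ok N δ) (h : IsS δ x) (r) (τ : ℂ) :
    nh x r (τ + 1) = conj (tm N δ r) * nh x r τ := by
  simp only [nh_eq, J, K, add_right_comm τ 1, fn_T o h, map_mul, mul_neg, ← integral_const_mul,
    mul_left_comm (conj (tm N δ r)), add_im, one_im, add_zero]

end Du.Pe

open Du Du.Pe

theorem pets (P : PHI) : PETS := fun N _ δ o x h =>
  ⟨cf_sym (kp P o) h, fn_bd (kp P o) h, fun y => den_int h, pet_def h⟩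

theorem hfb : Kf.HFB := fun N _ δ o x h r => by
  obtain ⟨C, a, b⟩ := fn_le h
  obtain ⟨D, c, d⟩ := nh_le h
  refine ⟨nh_c1 h r, fun τ p => ⟨?_, nh_T o h r τ⟩, C + D, _, c_pos (N := N), fun τ p =>
    ⟨(b r τ p).trans (by gcongr; linarith), (d r τ p).trans (by gcongr; linarith)⟩⟩
  rw [Lo, (nh_der h r p).fderiv, LL_apply, LL_apply]
  simp [mul_comm]

end Vale.Agent.P004Z
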