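import Vale.Agent.P004Z.Du.Bas
import Vale.Agent.P022.H790.A1

/-! # P004Z, block G2: power series on the unit disc -/

set_option linter.all false

open Complex PowerSeries Metric Filter Topology
open scoped Real ComplexConjugate MatrixGroups ModularForm

noncomputable section

namespace Vale.Agent.P004Z.Du

theorem coeff_pw (P Q : ℂ⟦X⟧) (t : ℂ) (n : ℕ) : coeff n (P * Q) * t ^ n =
    ∑ p ∈ Finset.HasAntidiagonal.antidiagonal n, coeff p.1 P * t ^ p.1 * (coeff p.2 Q * t ^ p.2) := by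
  rw [coeff_mul, Finset.sum_mul]
  refine Finset.sum_congr rfl fun p hp => ?_
  rw [← Finset.HasAntidiagonal.mem_antidiagonal.1 hp]
  ring

theorem hs_C (a t : ℂ) : HasSum (fun n => coeff n (C a) * t ^ n) a := by
  simpa using hasSum_single (f := fun n => coeff n (C a) * t ^ n) 0 fun n h => by simp [coeff_C, h]

/-- series converging on the unit disc -/
def Cv : Subring ℂ⟦X⟧ where
  carrier := {P | ∀ t : ℂ, ‖t‖ < 1 → Summable fun n => coeff n P * t ^ n}
  mul_mem' h k t ht := by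
    simp only [coeff_pw]
    exact (summable_norm_sum_mul_antidiagonal_of_summable_norm (h t ht).norm (k t ht).norm).of_norm
  one_mem' t _ := (hs_C 1 t).summable
  add_mem' h k t ht := by simpa [add_mul] using (h t ht).add (k t ht)
  zero_mem' t _ := by simp [summable_zero]
  neg_mem' h t ht := by simpa using (h t ht).neg

/-- the sum -/
def ev (P : ℂ⟦X⟧) (t : ℂ) : ℂ := ∑' n, coeff n P * t ^ n

variable {P Q : ℂ⟦X⟧} {t : ℂ}

theorem C_mem (a : ℂ) : C a ∈ Cv := fun t _ => (hs_C a t).summable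

@[simp] theorem ev_C (a t : ℂ) : ev (C a) t = a := (hs_C a t).tsum_eq

@[simp] theorem ev_one (t : ℂ) : ev 1 t = 1 := ev_C 1 t

@[simp] theorem ev_zero (t : ℂ) : ev 0 t = 0 := by simp [ev]

theorem hs_X (t : ℂ) : HasSum (fun n => coeff n (X : ℂ⟦X⟧) * t ^ n) t := by
  simpa using hasSum_single (f := fun n => coeff n (X : ℂ⟦X⟧) * t ^ n) 1
    fun n h => by simp [coeff_X, h]

theorem X_mem : (X : ℂ⟦X⟧) ∈ Cv := fun t _ => (hs_X t).summable

@[simp] theorem ev_X (t : ℂ) : ev X t = t := (hs_X t).tsum_eq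

theorem ev_at0 (P : ℂ⟦X⟧) : ev P 0 = constantCoeff P := by
  rw [ev, tsum_eq_single 0 fun n h => by simp [h]]
  simp

section
variable (ht : ‖t‖ < 1) (hP : P ∈ Cv) (hQ : Q ∈ Cv)
include ht hP hQ

theorem ev_add : ev (P + Q) t = ev P t + ev Q t := by
  simpa [ev, add_mul] using (hP t ht).tsum_add (hQ t ht)

theorem ev_sub : ev (P - Q) t = ev P t - ev Q t := by
  simpa [ev, sub_mul] using (hP t ht).tsum_sub (hQ t ht)

theorem ev_mul : ev (P * Q) t = ev P t * ev Q t := by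
  simp only [ev, coeff_pw]
  exact (tsum_mul_tsum_eq_tsum_sum_antidiagonal_of_summable_norm (hP t ht).norm (hQ t ht).norm).symm

omit hQ

theorem ev_pow (n : ℕ) : ev (P ^ n) t = ev P t ^ n := by
  induction n with
  | zero => simp
  | succ n ih => rw [pow_succ, pow_succ, ev_mul ht (pow_mem hP n) hP, ih]

theorem ev_Cmul (a : ℂ) : ev (C a * P) t = a * ev P t := by rw [ev_mul ht (C_mem a) hP, ev_C]

end

/-- the sum as a ring homomorphism -/
def evh (ht : ‖t‖ < 1) : Cv →+* ℂ where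
  toFun P := ev P t
  map_one' := ev_one t
  map_zero' := ev_zero t
  map_add' P Q := ev_add ht P.2 Q.2
  map_mul' P Q := ev_mul ht P.2 Q.2

theorem ev_sum {ι : Type} (ht : ‖t‖ < 1) (s : Finset ι) {F : ι → ℂ⟦X⟧} (h : ∀ i, F i ∈ Cv) :
    ev (∑ i ∈ s, F i) t = ∑ i ∈ s, ev (F i) t := by
  simp only [ev, map_sum, Finset.sum_mul]
  exact Summable.tsum_finsetSum fun i _ => h i t ht

/-- `t d/dt` -/
def dq (P : ℂ⟦X⟧) : ℂ⟦X⟧ := mk fun n => n * coeff n P

theorem der (hP : P ∈ Cv) (ht : ‖t‖ < 1) : DifferentiableAt ℂ (ev P) t ∧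
    HasSum (fun n => coeff n (dq P) * t ^ n) (t * deriv (ev P) t) := by
  obtain ⟨ρ, h1, h2⟩ := exists_between ht
  have h0 := (norm_nonneg t).trans h1.le
  have hu := (hP ρ (by rwa [norm_real, Real.norm_of_nonneg h0])).norm
  have hb : ∀ n, ∀ w ∈ ball (0 : ℂ) ρ, ‖coeff n P * w ^ n‖ ≤ ‖coeff n P * (ρ : ℂ) ^ n‖ :=
    fun n w hw => by
      rw [norm_mul, norm_mul, norm_pow, norm_pow, norm_real, Real.norm_of_nonneg h0]
      gcongr
      exact (mem_ball_zero_iff.1 hw).le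
  have hd : ∀ n, DifferentiableOn ℂ (fun w : ℂ => coeff n P * w ^ n) (ball 0 ρ) := by fun_prop
  have hm := mem_ball_zero_iff.2 h1
  refine ⟨(differentiableOn_tsum_of_summable_norm hu hd isOpen_ball hb).differentiableAt
    (isOpen_ball.mem_nhds hm), ?_⟩
  refine (funext fun n => ?_ : _ = fun n => coeff n (dq P) * t ^ n) ▸
    (hasSum_deriv_of_summable_norm hu hd isOpen_ball hb hm).mul_left t
  rw [((hasDerivAt_pow n t).const_mul _).deriv, dq, coeff_mk]
  cases n <;> simp [pow_succ]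
  ring

theorem dq_mem (hP : P ∈ Cv) : dq P ∈ Cv := fun _ ht => (der hP ht).2.summable

theorem ev_dq (hP : P ∈ Cv) (ht : ‖t‖ < 1) : ev (dq P) t = t * deriv (ev P) t :=
  (der hP ht).2.tsum_eq

theorem an (hP : P ∈ Cv) : AnalyticOnNhd ℂ (ev P) (ball 0 1) :=
  DifferentiableOn.analyticOnNhd (fun _ ht => (der hP (mem_ball_zero_iff.1 ht)).1.differentiableWithinAt)
    isOpen_ball

theorem uniq (hP : P ∈ Cv) (ht : ‖t‖ < 1) (h : ∃ᶠ w in 𝓝[≠] t, ev P w = 0) : P = 0 := by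
  have h1 := (an hP).eqOn_zero_of_preconnected_of_frequently_eq_zero
    (convex_ball 0 1).isPreconnected (mem_ball_zero_iff.2 ht) h
  have h2 : HasFPowerSeriesAt (ev P) (.ofScalars ℂ fun n => coeff n P) 0 :=
    hasFPowerSeriesAt_iff.2 (by
      filter_upwards [ball_mem_nhds 0 one_pos] with w hw
      simpa [mul_comm, ev] using (hP w (mem_ball_zero_iff.1 hw)).hasSum)
  have h3 := h2.eq_zero_of_eventually (eventually_of_mem (ball_mem_nhds 0 one_pos) h1)
  ext n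
  exact congrFun (FormalMultilinearSeries.ofScalars_series_eq_zero ℂ |>.1 h3) n

theorem ex_ev {G : ℂ → ℂ} (h : DifferentiableOn ℂ G (ball 0 1)) :
    ∃ P ∈ Cv, ∀ t, ‖t‖ < 1 → ev P t = G t := by
  have e : ∀ t : ℂ, ‖t‖ < 1 → HasSum (fun n => coeff n (mk fun n =>
      (n.factorial : ℂ)⁻¹ * iteratedDeriv n G 0) * t ^ n) (G t) := fun t ht => by
    simpa [mul_comm, mul_left_comm, mul_assoc] using
      hasSum_taylorSeries_on_ball h (mem_ball_zero_iff.2 ht)
  exact ⟨_, fun t ht => (e t ht).summable, fun t ht => (e t ht).tsum_eq⟩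

/-- a class of series closed under a first order operator has no common zero -/
theorem ord {L : Set ℂ⟦X⟧} (ht : ‖t‖ < 1) (h0 : t ≠ 0) (hL : ∀ G ∈ L, G ∈ Cv ∧ ev G t = 0 ∧
    ∃ A ∈ Cv, ∃ B ∈ Cv, ev B t ≠ 0 ∧ A * G - B * dq G ∈ L) : ∀ G ∈ L, G = 0 := by
  have m := mem_ball_zero_iff.2 ht
  have k : ∀ n : ℕ, ∀ G ∈ L, (n : ℕ∞) ≤ analyticOrderAt (ev G) t := fun n => by
    induction n with
    | zero => simp
    | succ n ih =>
      intro G hG
      obtain ⟨h1, h2, A, hA, B, hB, h3, h4⟩ := hL G hG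
      have e : (fun w => ev B w * w) * deriv (ev G) =ᶠ[𝓝 t]
          ev A * ev G - ev (A * G - B * dq G) := by
        filter_upwards [isOpen_ball.mem_nhds m] with w hw
        rw [mem_ball_zero_iff] at hw
        simp only [Pi.mul_apply, Pi.sub_apply]
        rw [ev_sub hw (mul_mem hA h1) (mul_mem hB (dq_mem h1)), ev_mul hw hA h1,
          ev_mul hw hB (dq_mem h1), ev_dq h1 hw]
        ring
      have aB : AnalyticAt ℂ (fun w => ev B w * w) t := (an hB t m).mul analyticAt_id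
      have e2 := analyticOrderAt_congr e
      rw [analyticOrderAt_mul aB (an h1 t m).deriv, aB.analyticOrderAt_eq_zero.2 (mul_ne_zero h3 h0),
        zero_add] at e2
      rw [Nat.cast_succ, ← analyticOrderAt_deriv_ge_iff (an h1 t m) h2, e2]
      refine le_trans (le_min ?_ (ih _ h4)) le_analyticOrderAt_sub
      rw [analyticOrderAt_mul (an hA t m) (an h1 t m)]
      exact le_add_left (ih G hG)
  exact fun G hG => uniq (hL G hG).1 ht ((analyticOrderAt_eq_top.1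
    (ENat.eq_top_iff_forall_ge.2 fun n => k n G hG)).filter_mono nhdsWithin_le_nhds).frequently

/-- local quotients -/
theorem mem_of_loc (h : ∀ t : ℂ, ‖t‖ < 1 → t ≠ 0 → ∃ D ∈ Cv, ev D t ≠ 0 ∧ D * P ∈ Cv) : P ∈ Cv := by
  have sh : ∀ Q : ℂ⟦X⟧, X * Q ∈ Cv → Q ∈ Cv := fun Q hQ t ht => by
    rcases eq_or_ne t 0 with rfl | h0
    · exact summable_of_ne_finset_zero (s := {0}) fun n hn => by
        rw [zero_pow (by simpa using hn), mul_zero]
    · simpa [pow_succ, ← mul_assoc, h0] using ((summable_nat_add_iff 1).2 (hQ t ht)).mul_right t⁻¹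
  have h' : ∀ t : ℂ, ∃ D ∈ Cv, ‖t‖ < 1 → ev D t ≠ 0 ∧ D * P ∈ Cv := fun t => by
    by_cases ht : ‖t‖ < 1
    swap
    · exact ⟨1, one_mem _, fun k => absurd k ht⟩
    rcases eq_or_ne t 0 with rfl | h0
    swap
    · exact (h t ht h0).imp fun D k => ⟨k.1, fun _ => k.2⟩
    obtain ⟨D, h1, h2, h3⟩ := h (1 / 2) (by norm_num) (by norm_num)
    have D0 : D ≠ 0 := fun e => h2 (by simp [e])
    have e := X_pow_order_mul_divXPowOrder (f := D)
    have k : ∀ (n : ℕ) (Q : ℂ⟦X⟧), X ^ n * Q ∈ Cv → Q ∈ Cv := fun n => by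
      induction n with
      | zero => simp
      | succ n ih => exact fun Q hQ => sh Q (ih _ (by rwa [← mul_assoc, ← pow_succ]))
    exact ⟨divXPowOrder D, k _ _ (e.symm ▸ h1), fun _ => ⟨by
      rw [ev_at0]; exact mt constantCoeff_divXPowOrder_eq_zero_iff.1 D0, k _ _ (by rwa [← mul_assoc, e])⟩⟩
  choose D h1 h2 using h'
  have e : ∀ s t : ℂ, ‖s‖ < 1 → ‖t‖ < 1 →
      ev (D s) t * (ev (D t * P) t / ev (D t) t) = ev (D s * P) t := fun s t hs ht => by
    rw [← mul_div_assoc, div_eq_iff (h2 t ht).1, ← ev_mul ht (h1 s) (h2 t ht).2,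
      ← ev_mul ht (h2 s hs).2 (h1 t)]
    congr 1
    ring
  obtain ⟨G, hG, k⟩ := ex_ev (G := fun t => ev (D t * P) t / ev (D t) t) fun s hs => by
    have hs' := mem_ball_zero_iff.1 hs
    refine (((der (h2 s hs').2 hs').1.div (der (h1 s) hs').1 (h2 s hs').1).congr_of_eventuallyEq
      ?_).differentiableWithinAt
    filter_upwards [isOpen_ball.mem_nhds hs,
      (der (h1 s) hs').1.continuousAt.eventually_ne (h2 s hs').1] with t ht h0
    rw [Pi.div_apply, eq_div_iff h0, mul_comm, e s t hs' (mem_ball_zero_iff.1 ht)]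
  have z : ‖(0 : ℂ)‖ < 1 := by simp
  have := uniq (sub_mem (mul_mem (h1 0) hG) (h2 0 z).2) z (Eventually.frequently (by
    filter_upwards [mem_nhdsWithin_of_mem_nhds (ball_mem_nhds 0 one_pos)] with t ht
    rw [mem_ball_zero_iff] at ht
    rw [ev_sub ht (mul_mem (h1 0) hG) (h2 0 z).2, ev_mul ht (h1 0) hG, k t ht, e 0 t z ht, sub_self]))
  rwa [← mul_left_cancel₀ (fun e => (h2 0 z).1 (by simp [e])) (sub_eq_zero.1 this)]

/-! ### the parameter `e(τ / M)` -/

/-- the local parameter -/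
def tq (M : ℕ) (τ : ℂ) : ℂ := ee (τ / M)

variable {M : ℕ} [NeZero M] {τ : ℂ}

theorem tq_lt (h : 0 < τ.im) : ‖tq M τ‖ < 1 := by
  have : (0 : ℝ) < M := by exact_mod_cast NeZero.pos M
  rw [tq, norm_ee, Real.exp_lt_one_iff, div_natCast_im, neg_lt_zero]
  positivity

theorem tq_pow (n : ℕ) : tq M τ ^ n = ee (n * τ / M) := by rw [tq, ← ee_pow, mul_div_assoc]

theorem ex_tq (M : ℕ) [NeZero M] (ht : ‖t‖ < 1) (h0 : t ≠ 0) : ∃ τ : ℂ, 0 < τ.im ∧ tq M τ = t := by
  have hM : (0 : ℝ) < M := by exact_mod_cast NeZero.pos M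
  refine ⟨_, Function.Periodic.im_invQParam_pos_of_norm_lt_one hM ht h0, ?_⟩
  rw [tq, ee, ← mul_div_assoc]
  exact Function.Periodic.qParam_right_inv hM.ne' h0

theorem mem_tq (M : ℕ) [NeZero M]
    (h : ∀ τ : ℂ, 0 < τ.im → Summable fun n => coeff n P * ee (n * τ / M)) : P ∈ Cv := fun t ht => by
  rcases eq_or_ne t 0 with rfl | h0
  · exact summable_of_ne_finset_zero (s := {0}) fun n hn => by
      rw [zero_pow (by simpa using hn), mul_zero]
  obtain ⟨τ, h1, rfl⟩ := ex_tq M ht h0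
  simpa only [tq_pow] using h τ h1

theorem uniq_tq (M : ℕ) [NeZero M] (hP : P ∈ Cv) (hQ : Q ∈ Cv)
    (h : ∀ τ : ℂ, 0 < τ.im → ev P (tq M τ) = ev Q (tq M τ)) : P = Q := by
  refine sub_eq_zero.1 (uniq (t := 0) (sub_mem hP hQ) (by simp) (Eventually.frequently ?_))
  filter_upwards [mem_nhdsWithin_of_mem_nhds (ball_mem_nhds 0 one_pos), self_mem_nhdsWithin]
    with t ht h0
  rw [mem_ball_zero_iff] at ht
  obtain ⟨τ, h1, rfl⟩ := ex_tq M ht h0
  rw [ev_sub ht hP hQ, h τ h1, sub_self]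

theorem der_tq (hP : P ∈ Cv) (h : 0 < τ.im) :
    HasDerivAt (fun τ => ev P (tq M τ)) (2 * π * I / M * ev (dq P) (tq M τ)) τ :=
  ((der hP (tq_lt h)).1.hasDerivAt.comp τ ((hasDerivAt_ee _).comp τ
    ((hasDerivAt_id τ).div_const (M : ℂ)))).congr_deriv (by
      rw [ev_dq hP (tq_lt h), tq]
      ring)

theorem hs_expand (hP : P ∈ Cv) (ht : ‖t‖ < 1) :
    HasSum (fun n => coeff n (expand M (NeZero.ne M) P) * t ^ n) (ev P (t ^ M)) := by
  refine ((mul_right_injective₀ (NeZero.ne M)).hasSum_iff fun n hn => ?_).1 ?_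
  · rw [coeff_expand_of_not_dvd _ _ _ fun ⟨c, e⟩ => hn ⟨c, e.symm⟩, zero_mul]
  · simpa [Function.comp_def, pow_mul, ev] using (hP (t ^ M) (by
      rw [norm_pow]; exact pow_lt_one₀ (norm_nonneg _) ht (NeZero.ne M))).hasSum

theorem expand_mem (hP : P ∈ Cv) : expand M (NeZero.ne M) P ∈ Cv :=
  fun _ ht => (hs_expand hP ht).summable

theorem ev_expand {K : ℕ} [NeZero K] (hP : P ∈ Cv) (h : 0 < τ.im) :
    ev (expand M (NeZero.ne M) P) (tq (M * K) τ) = ev P (tq K τ) := by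
  have := N_ne (N := M)
  rw [ev, (hs_expand hP (tq_lt h)).tsum_eq, tq_pow, tq, Nat.cast_mul, mul_div_mul_left _ _ this]

theorem fn_eq {N : ℕ} [NeZero N] (x : Cf N) (r : ZMod (2 * N)) (τ : ℂ) :
    fn x r τ = ev (mk fun n => x n r) (tq (4 * N) τ) := by
  simp [fn, ev, tq_pow]

/-! ### level one -/

/-- an integral series which is a form of level one and weight `k` -/
structure L1 (k : ℕ) (Z : ℤ⟦X⟧) : Prop where
  cv : Z.map (Int.castRingHom ℂ) ∈ Cv
  law : ∀ τ : ℂ, 0 < τ.im → ev (Z.map (Int.castRingHom ℂ)) (tq 1 (-1 / τ)) =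
    τ ^ k * ev (Z.map (Int.castRingHom ℂ)) (tq 1 τ)

theorem mf_ev {k : ℤ} {F : Type} [FunLike F UpperHalfPlane ℂ] (f : F) [ModularFormClass F 𝒮ℒ k] :
    UpperHalfPlane.qExpansion 1 f ∈ Cv ∧
    ∀ (τ : ℂ) (h : 0 < τ.im), ev (UpperHalfPlane.qExpansion 1 f) (tq 1 τ) = f ⟨τ, h⟩ := by
  have e : ∀ (τ : ℂ) (h : 0 < τ.im), HasSum (fun n => coeff n (UpperHalfPlane.qExpansion 1 f) *
      tq 1 τ ^ n) (f ⟨τ, h⟩) := fun τ h => by
    simpa [tq, ee, Function.Periodic.qParam] using ModularForm.hasSum_qExpansion f one_pos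
      one_mem_strictPeriods_SL ⟨τ, h⟩
  exact ⟨mem_tq 1 fun τ h => by simpa only [tq_pow] using (e τ h).summable,
    fun τ h => (e τ h).tsum_eq⟩

theorem l1_of {k : ℕ} {F : Type} [FunLike F UpperHalfPlane ℂ] (f : F)
    [ModularFormClass F 𝒮ℒ (k : ℤ)] {Z : ℤ⟦X⟧}
    (e : UpperHalfPlane.qExpansion 1 f = Z.map (Int.castRingHom ℂ)) : L1 k Z := by
  obtain ⟨h1, h2⟩ := mf_ev f
  refine ⟨e ▸ h1, fun τ h => ?_⟩
  have := SlashInvariantForm.slash_action_eqn'' (Γ := 𝒮ℒ) f (γ := ModularGroup.S) ⟨_, rfl⟩ ⟨τ, h⟩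
  rw [ModularGroup.denom_S, ← ModularGroup.sl_moeb, UpperHalfPlane.modular_S_smul] at this
  rw [← e, h2 τ h, h2 _ (im_S h), ← zpow_natCast]
  refine Eq.trans (congrArg f (UpperHalfPlane.ext ?_)) this
  simp [neg_div, inv_neg]

theorem L1.one : L1 0 1 := ⟨by simpa using one_mem _, by simp⟩

theorem L1.mul {k l : ℕ} {Y Z : ℤ⟦X⟧} (h : L1 k Y) (h' : L1 l Z) : L1 (k + l) (Y * Z) :=
  ⟨by simpa using mul_mem h.cv h'.cv, fun τ hτ => by
    rw [map_mul, ev_mul (tq_lt hτ) h.cv h'.cv, ev_mul (tq_lt (im_S hτ)) h.cv h'.cv, h.law τ hτ,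
      h'.law τ hτ]
    ring⟩

theorem L1.pow {k : ℕ} {Y : ℤ⟦X⟧} (h : L1 k Y) (n : ℕ) : L1 (k * n) (Y ^ n) := by
  induction n with
  | zero => simpa using L1.one
  | succ n ih => exact pow_succ Y n ▸ ih.mul h

open P022.H790.A ModularForm

theorem l1_E4 : L1 4 E4Z := l1_of E₄ qExp_E4

theorem l1_E6 : L1 6 E6Z := l1_of E₆ qExp_E6

theorem l1_D : L1 12 DZ := l1_of (k := 12) CuspForm.discriminant qExp_disc

theorem D_ne (h : 0 < τ.im) : ev (DZ.map (Int.castRingHom ℂ)) (tq 1 τ) ≠ 0 := by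
  have := (mf_ev (k := 12) CuspForm.discriminant).2 τ h
  exact ((congrArg (ev · _) qExp_disc).symm.trans this).trans_ne (discriminant_ne_zero _)

theorem ex_U : ∃ U V : ℤ⟦X⟧, DZ = X * U ∧ U * V = 1 ∧ V.map (Int.castRingHom ℂ) ∈ Cv := by
  have h0 : constantCoeff DZ = 0 := by simp [DZ, P022.H790.A.gs, sg]
  obtain ⟨U, e⟩ := X_dvd_iff.2 h0
  have h1 : constantCoeff U = (1 : ℤˣ) := by
    have := congrArg (coeff 1) qExp_disc
    rw [CuspForm.coe_discriminant, discriminant_qExpansion_coeff_one, e, toC, coeff_map,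
      coeff_succ_X_mul] at this
    simpa using (Int.cast_injective (α := ℂ) (by simpa using this.symm) : coeff 0 U = 1)
  refine ⟨U, _, e, mul_invOfUnit U 1 h1, mem_of_loc fun t ht t0 => ?_⟩
  obtain ⟨τ, h, rfl⟩ := ex_tq 1 ht t0
  refine ⟨_, l1_D.cv, D_ne h, ?_⟩
  rw [← map_mul, e, mul_assoc, mul_invOfUnit U 1 h1]
  simpa using X_mem

end Vale.Agent.P004Z.Du
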