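import Vale.Agent.P004Z.Du.Span
import Vale.Agent.P004Z.Du.Pair

/-! # P004Z, block G2: rows SERRE and FIN -/

set_option linter.all false

open Complex PowerSeries Finset
open scoped Real ComplexConjugate

noncomputable section

namespace Vale.Agent.P004Z.Du

open P022.H790.A (DZ E4Z E6Z sg)

theorem ct0 {H : ℂ⟦X⟧} (hH : H ∈ Cv) (m : ℕ) (law : ∀ τ : ℂ, 0 < τ.im →
    ev H (tq 1 (-1 / τ)) * ee (-(m * (-1 / τ))) = τ ^ 2 * (ev H (tq 1 τ) * ee (-(m * τ)))) :
    coeff m H = 0 := by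
  have d : DifferentiableOn ℂ (fun τ => ev H (tq 1 τ) * ee (-(m * τ))) {τ | 0 < τ.im} := fun τ h =>
    ((der_tq hH h).differentiableAt.mul (by unfold ee; fun_prop)).differentiableWithinAt
  have e := stk _ (Pe.hol_c1 d) (fun τ h => ⟨by
    rw [(Sup.one H).law, ee_congr (y := -(m * τ)) (-m) (by push_cast; ring), one_mul], law τ h⟩) 1 le_rfl
  rw [MeasureTheory.setIntegral_eq_zero_of_forall_eq_zero fun τ h => by
    rw [Lo, (Pe.hol_der d h.1.2.2).fderiv]
    simp [Pe.LL_apply, mul_comm]] at e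
  have c := Pe.ct (k := fun n : ℕ => n - m) (((hH _ (tq_lt (M := 1) (τ := I) (by simp))).mul_right
    (ee (-(m * I)))).norm)
  rw [intervalIntegral.integral_congr (g := fun u : ℝ => ev H (tq 1 (u + I * (1 : ℝ))) *
    ee (-(m * (u + I * (1 : ℝ))))) fun u _ => by
      simp only [ev, ← tsum_mul_right, tq_pow, mul_assoc, ← ee_add]
      refine tsum_congr fun n => ?_
      congr 2
      push_cast
      ring, ← e] at c
  simpa [ee_ne, tq] using (hasSum_single m fun n hn => if_neg (by omega)).unique c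

/-- series which are forms of level one -/
def MF (k : ℕ) (P : ℂ⟦X⟧) : Prop :=
  P ∈ Cv ∧ ∀ τ : ℂ, 0 < τ.im → ev P (tq 1 (-1 / τ)) = τ ^ k * ev P (tq 1 τ)

/-- integral series as complex series -/
abbrev zc : ℤ⟦X⟧ →+* ℂ⟦X⟧ := PowerSeries.map (Int.castRingHom ℂ)

theorem MF.mul {k l : ℕ} {Z : ℤ⟦X⟧} {P : ℂ⟦X⟧} (h : L1 k Z) (h' : MF l P) : MF (k + l) (zc Z * P) :=
  ⟨mul_mem h.cv h'.1, fun τ hτ => by
    rw [ev_mul (tq_lt hτ) h.cv h'.1, ev_mul (tq_lt (im_S hτ)) h.cv h'.1, h.law τ hτ, h'.2 τ hτ]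
    ring⟩

theorem MF.add {k : ℕ} {Z : ℤ⟦X⟧} {P : ℂ⟦X⟧} (h : MF k P) (h' : L1 k Z) (c : ℂ) :
    MF k (P + C c * zc Z) :=
  ⟨add_mem h.1 (mul_mem (C_mem c) h'.cv), fun τ hτ => by
    rw [ev_add (tq_lt hτ) h.1 (mul_mem (C_mem c) h'.cv), ev_Cmul (tq_lt hτ) h'.cv,
      ev_add (tq_lt (im_S hτ)) h.1 (mul_mem (C_mem c) h'.cv), ev_Cmul (tq_lt (im_S hτ)) h'.cv,
      h.2 τ hτ, h'.law τ hτ]
    ring⟩

section
variable {U V : ℤ⟦X⟧} (hD : DZ = X * U) (hU : U * V = 1) (hV : zc V ∈ Cv)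
include hD hU hV

theorem vq (m : ℕ) {τ : ℂ} (h : 0 < τ.im) :
    ev (zc V ^ m) (tq 1 τ) * ee (-(m * τ)) = (ev (zc DZ) (tq 1 τ) ^ m)⁻¹ := by
  have e := ev_mul (tq_lt (M := 1) h) l1_D.cv hV
  rw [← map_mul, hD, mul_assoc, hU, mul_one, map_X, ev_X, ← hD] at e
  refine eq_inv_of_mul_eq_one_right ?_
  rw [ev_pow (tq_lt h) hV, ← mul_assoc, ← mul_pow, ← e, tq_pow, ← ee_add]
  simp

theorem vq_S (m : ℕ) {τ : ℂ} (h : 0 < τ.im) : τ ^ (12 * m) * (ev (zc V ^ m) (tq 1 (-1 / τ)) *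
    ee (-(m * (-1 / τ)))) = ev (zc V ^ m) (tq 1 τ) * ee (-(m * τ)) := by
  rw [vq hD hU hV m h, vq hD hU hV m (im_S h), l1_D.law τ h, mul_pow, ← pow_mul, mul_inv,
    mul_inv_cancel_left₀ (pow_ne_zero _ (ne0 h))]

theorem lv (k : ℕ) (u : ℂ⟦X⟧) (hu : ∀ w Z n, L1 w Z → w + 2 * k = 12 * n →
    coeff n (zc (Z * V ^ n) * u) = 0) : MF (2 * k + 2) u ∧ (X ^ (k + 1) ∣ u → u = 0) := by
  obtain ⟨a, b, m, ha, hb, e⟩ : ∃ a b m, a ≤ 2 ∧ b ≤ 1 ∧ 4 * a + 6 * b + 2 * k = 12 * m :=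
    ⟨(3 - (3 * (k % 2) + k) / 2 % 3) % 3, k % 2, (2 * ((3 - (3 * (k % 2) + k) / 2 % 3) % 3) +
      3 * (k % 2) + k) / 6, by omega, by omega, by omega⟩
  have c0 : constantCoeff U * constantCoeff V = 1 := by rw [← map_mul, hU, map_one]
  have c1 : ∀ (i j n : ℕ) {W : ℤ⟦X⟧}, constantCoeff W ≠ 0 →
      constantCoeff (zc (E4Z ^ i * E6Z ^ j * W ^ n)) ≠ 0 := fun i j n W h => by
    rw [← coeff_zero_eq_constantCoeff_apply, coeff_map, coeff_zero_eq_constantCoeff_apply]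
    simp [E4Z, E6Z, sg, h]
  have l := fun i j => (l1_E4.pow i).mul (l1_E6.pow j)
  have z : ∀ R : ℂ⟦X⟧, (∀ w Z n, L1 w Z → w + 2 * k = 12 * n → coeff n (zc (Z * V ^ n) * R) = 0) →
      X ^ m ∣ R → R = 0 := fun R hR h0 => by
    have : ∀ i, X ^ (m + i) ∣ R := fun i => by
      induction i with
      | zero => exact h0
      | succ i ih =>
        obtain ⟨S, rfl⟩ := ih
        have := hR _ _ (m + i) (l (a + 3 * i) b) (by omega)
        rw [mul_left_comm, coeff_X_pow_mul', if_pos le_rfl, Nat.sub_self,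
          coeff_zero_eq_constantCoeff_apply, map_mul constantCoeff] at this
        rw [← add_assoc, pow_succ]
        exact mul_dvd_mul_left _ (X_dvd_iff.2 ((mul_eq_zero.1 this).resolve_left
          (c1 _ _ _ (right_ne_zero_of_mul_eq_one c0))))
    ext n
    exact X_pow_dvd_iff.1 (this (n + 1)) n (by omega)
  have p : ∀ s ≤ m, ∃ P, MF (2 * k + 2) P ∧ X ^ s ∣ u - P := fun s => by
    induction s with
    | zero => exact fun _ => ⟨0, ⟨zero_mem _, by simp⟩, by simp⟩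
    | succ s ih =>
      intro hs
      obtain ⟨P, h1, S, h2⟩ := ih (by omega)
      have h3 := c1 (2 - a + 3 * (m - 1 - s)) (1 - b) s (left_ne_zero_of_mul_eq_one c0)
      refine ⟨_, h1.add ((show 4 * (2 - a + 3 * (m - 1 - s)) + 6 * (1 - b) + 12 * s = 2 * k + 2 by
        omega) ▸ (l _ _).mul (l1_D.pow s)) (constantCoeff S / constantCoeff (zc (E4Z ^
          (2 - a + 3 * (m - 1 - s)) * E6Z ^ (1 - b) * U ^ s))), ?_⟩
      rw [← sub_sub, h2, hD, mul_pow, mul_left_comm _ (X ^ s), map_mul zc (X ^ s), map_pow, map_X,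
        mul_left_comm, ← mul_sub, pow_succ]
      refine mul_dvd_mul_left _ (X_dvd_iff.2 ?_)
      rw [map_sub, map_mul, constantCoeff_C, div_mul_cancel₀ _ h3, sub_self]
  obtain ⟨P, h1, h2⟩ := p m le_rfl
  refine ⟨sub_eq_zero.1 (z _ (fun w Z n hZ e => ?_) h2) ▸ h1,
    fun h => z u hu ((pow_dvd_pow _ (by omega)).trans h)⟩
  obtain ⟨h3, h4⟩ := MF.mul hZ h1
  rw [mul_sub, map_sub, hu w Z n hZ e, zero_sub, neg_eq_zero, map_mul zc, map_pow, mul_comm (zc Z),
    mul_assoc]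
  refine ct0 (mul_mem (pow_mem hV n) h3) n fun τ h => ?_
  rw [ev_mul (tq_lt h) (pow_mem hV n) h3, ev_mul (tq_lt (im_S h)) (pow_mem hV n) h3, h4 τ h,
    ← add_assoc, e]
  linear_combination τ ^ 2 * ev (zc Z * P) (tq 1 τ) * vq_S hD hU hV n h

end

variable {N : ℕ} [NeZero N] {δ : ℕ}

theorem wh (ok : Ok N δ) {G : ZMod (2 * N) → ℂ⟦X⟧} (m : ℕ) (cv : ∀ r, G r ∈ Cv) (iz : ∀ r, G r ∈ IZ)
    (T : ∀ r, Sup (4 * N) (conj (tm N δ r)) (G r)) (S : ∀ τ : ℂ, 0 < τ.im → ∀ r,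
      ev (G r) (tq (4 * N) (-1 / τ)) * ee (-(m * (-1 / τ))) =
        hw τ * ∑ s, conj (sm N δ r s) * (ev (G s) (tq (4 * N) τ) * ee (-(m * τ)))) :
    ∃ c, WH δ c ∧ ∀ x : Cf N, (∀ r, x 0 r = 0) →
      pr x c = coeff (4 * N * m) (∑ r, G r * mk fun n => x n r) := by
  have h0 := N_ne (N := N)
  choose g hg using fun r => iz_iff.1 (iz r)
  let a : ℤ → ZMod (2 * N) → ℤ := fun n r =>
    if 0 ≤ n + (4 * N * m : ℕ) then g r (n + (4 * N * m : ℕ)).toNat else 0
  have hs : ∀ r (τ : ℂ), 0 < τ.im → HasSum (fun n : ℤ => (a n r : ℂ) * ee (n * τ / (4 * N)))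
      (ev (G r) (tq (4 * N) τ) * ee (-(m * τ))) := fun r τ h => by
    refine (Function.Injective.hasSum_iff (g := fun n : ℕ => (n : ℤ) - (4 * N * m : ℕ))
      (fun _ _ e => by simpa using e) fun n hn => ?_).1 ?_
    · rw [show a n r = 0 from if_neg fun k => hn ⟨(n + (4 * N * m : ℕ)).toNat, by
        simp only []; omega⟩, Int.cast_zero, zero_mul]
    refine ((cv r _ (tq_lt h)).hasSum.mul_right _).congr_fun fun n => ?_
    simp only [Function.comp, a, sub_add_cancel, Int.natCast_nonneg, if_true, Int.toNat_natCast, hg,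
      tq_pow, mul_assoc, ← ee_add]
    congr 2
    push_cast
    field_simp
    ring
  have e : ∀ r (τ : ℂ), 0 < τ.im → hf (fun n r => (a n r : ℂ)) 0 r τ =
      ev (G r) (tq (4 * N) τ) * ee (-(m * τ)) := fun r τ h => by
    simp [hf, nh, fn, (hs r τ h).tsum_eq]
  refine ⟨Finsupp.onFinset (range (4 * N * m + 1) ×ˢ univ)
    (fun i => if i.1 = 0 then 0 else a (-i.1) i.2) fun i hi => ?_, ⟨a, ⟨by simp, by simp,
      by simp [summable_zero], by simp [fn]⟩, fun n r hn => (tm_iff' ok n r).1 ?_, by simp,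
      fun n r hn => by simp [hn.ne'], fun r τ h => (hs r τ h).summable.norm, fun τ h r => ?_⟩,
    fun x hx => ?_⟩
  · refine mem_product.2 ⟨mem_range.2 (by_contra fun k => hi ?_), mem_univ _⟩
    rw [show a (-i.1) i.2 = 0 from if_neg (by omega), Int.cast_zero, ite_self]
  · have k : 0 ≤ n + (4 * N * m : ℕ) := by_contra fun k => hn (by simp only [a, if_neg k, Int.cast_zero])
    simp only [a, if_pos k, ← hg] at hn
    rw [← T r _ hn, ← Int.cast_natCast (Int.toNat _), Int.toNat_of_nonneg k]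
    exact ee_congr (-m) (by push_cast; field_simp; ring)
  · simp only [e _ τ h, e r _ (im_S h), S τ h]
  · rw [pr, Finsupp.onFinset_sum _ (by simp), sum_product_right, map_sum]
    refine sum_congr rfl fun r _ => ?_
    rw [mul_comm (G r), coeff_mul, Nat.sum_antidiagonal_eq_sum_range_succ_mk]
    refine sum_congr rfl fun n hn => ?_
    have := mem_range.1 hn
    split_ifs with k
    · simp [show n = 0 from k, hx]
    · simp only [a]
      rw [if_pos (by omega), coeff_mk, hg, mul_comm]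
      congr 3
      omega

variable {x : Cf N}

theorem key (ok : Ok N δ) (x0 : ∀ r, x 0 r = 0) (sup : ∀ n r, x n r ≠ 0 → In N δ n r)
    (H : ∀ c, WH δ c → pr x c = 0) {k : ℕ} {b : ℕ → ZMod (2 * N) → ℤ} (hb : IF δ k b) :
    (∀ r, (mk fun n => (b n r : ℂ)) ∈ Cv) ∧ ∃ u, ∑ r, (mk fun n => (b n r : ℂ)) * (mk fun n => x n r) =
      expand (4 * N) (NeZero.ne _) u ∧ MF (2 * k + 2) u ∧ (X ^ (k + 1) ∣ u → u = 0) := by
  obtain ⟨U, V, hD, hU, hV⟩ := ex_U
  have cv : ∀ r, (mk fun n => (b n r : ℂ)) ∈ Cv := fun r => mem_tq (4 * N) fun τ h => by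
    simpa using (hb.sum r τ h).of_norm
  have T : ∀ r, Sup (4 * N) (conj (tm N δ r)) (mk fun n => (b n r : ℂ)) := fun r n hn => by
    simpa using (tm_iff' ok n r).2 (hb.sup n r (by simpa using hn))
  have T1 : Sup (4 * N) 1 (∑ r, (mk fun n => (b n r : ℂ)) * mk fun n => x n r) := .sum fun r _ => by
    rw [← tm_conj (δ := δ) r, mul_comm (tm _ _ _)]
    exact (T r).mul fun n hn => by simpa using (tm_iff ok n r).2 (sup n r (by simpa using hn))
  generalize hu : ∑ r, (mk fun n => (b n r : ℂ)) * (mk fun n => x n r) = u at T1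
  have e : u = expand (4 * N) (NeZero.ne _) (mk fun n => coeff (4 * N * n) u) := by
    ext n
    by_cases d : 4 * N ∣ n
    · obtain ⟨n, rfl⟩ := d
      rw [coeff_expand_mul, coeff_mk]
    rw [coeff_expand_of_not_dvd _ _ _ d]
    exact by_contra fun e => d (Int.natCast_dvd_natCast.1 ((ee_div_eq_one (NeZero.ne _)).1 (T1 n e)))
  refine ⟨cv, _, e, lv hD hU hV k _ fun w Z n hZ hw => ?_⟩
  have m0 : zc (Z * V ^ n) ∈ Cv := by simpa using mul_mem hZ.cv (pow_mem hV n)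
  obtain ⟨c, h1, h2⟩ := wh ok (G := fun r => up (4 * N) (Z * V ^ n) * mk fun n => (b n r : ℂ)) n
    (fun r => mul_mem (expand_mem m0) (cv r))
    (fun r => mul_mem (up_iz _) (iz_iff.2 fun n => ⟨_, coeff_mk _ _⟩)) (fun r => (up_sup _).mul1 (T r))
    fun τ h r => by
      have v : ∀ r (σ : ℂ), 0 < σ.im → ev (up (4 * N) (Z * V ^ n) * mk fun n => (b n r : ℂ))
          (tq (4 * N) σ) * ee (-(n * σ)) = ev (zc Z) (tq 1 σ) * (ev (zc V ^ n) (tq 1 σ) *
            ee (-(n * σ))) * fn (fun n r => (b n r : ℂ)) r σ := fun r σ hσ => by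
        rw [ev_mul (P := up _ _) (tq_lt hσ) (expand_mem m0) (cv r), ev_up m0 hσ, map_mul, map_pow,
          ev_mul (tq_lt hσ) hZ.cv (pow_mem hV n), fn_eq]
        ring
      simp only [v _ τ h, v r _ (im_S h), hb.md.S τ h, hZ.law τ h, ← vq_S hD hU hV n h, ← hw,
        mul_left_comm (conj _), ← mul_sum]
      ring
  have := (h2 x x0).symm.trans (H c h1)
  simp only [mul_assoc, ← mul_sum, hu] at this
  rwa [e, up, ← map_mul, ← mul_assoc, coeff_expand_mul] at this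

theorem nak {A : Type} [Fintype A] [DecidableEq A] (J : AddSubmonoid ℂ⟦X⟧)
    (hJ : ∀ D ∈ Cv, ∀ P ∈ J, D * P ∈ J) (Y : A → ℂ⟦X⟧) {t : ℂ} (ht : ‖t‖ < 1) (h : ∀ v : A → ℂ,
      (∀ ψ : A → ℂ⟦X⟧, (∀ r, ψ r ∈ Cv) → ∑ r, ψ r * Y r ∈ J → ∑ r, ev (ψ r) t * v r = 0) → v = 0) :
    ∃ D ∈ Cv, ev D t ≠ 0 ∧ ∀ r, D * Y r ∈ J := by
  let L : Submodule Cv (A → Cv) :=
    { carrier := {ψ | ∑ r, ψ r * Y r ∈ J}
      add_mem' := fun h k => by simpa [add_mul, sum_add_distrib] using add_mem h k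
      zero_mem' := by simp
      smul_mem' := fun D ψ h => by simpa [mul_sum, mul_assoc] using hJ D D.2 _ h }
  let W : Submodule ℂ (A → ℂ) :=
    { carrier := {w | ∃ ψ ∈ L, ∀ r, evh ht (ψ r) = w r}
      add_mem' := fun ⟨ψ, h, e⟩ ⟨ψ', h', e'⟩ => ⟨_, add_mem h h', fun r => by simp [e, e']⟩
      zero_mem' := ⟨0, zero_mem _, by simp⟩
      smul_mem' := fun c w ⟨ψ, h, e⟩ => ⟨_, L.smul_mem ⟨_, C_mem c⟩ h, fun r => by
        rw [Pi.smul_apply, smul_eq_mul, map_mul, e]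
        exact congrArg (· * _) (ev_C c t)⟩ }
  have hW : W = ⊤ := by_contra fun k => by
    obtain ⟨f, f0, hf⟩ := W.exists_le_ker_of_lt_top (lt_top_iff_ne_top.2 k)
    have e : ∀ w, f w = ∑ r, w r * f fun j => if r = j then 1 else 0 := f.pi_apply_eq_sum_univ
    have := h _ fun ψ h1 h2 => (e _).symm.trans (hf ⟨fun r => ⟨ψ r, h1 r⟩, h2, fun r => rfl⟩)
    exact f0 (LinearMap.ext fun w => by simp [e w, congrFun this])
  obtain ⟨D, h1, h2⟩ := Submodule.exists_sub_one_mem_and_smul_le_of_fg_of_le_sup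
    (I := RingHom.ker (evh ht)) (N := L) (N' := ⊤) (P := ⊤) Module.Finite.fg_top le_rfl fun ψ _ => by
      obtain ⟨μ, h1, h2⟩ : (fun r => evh ht (ψ r)) ∈ W := hW ▸ trivial
      rw [← add_sub_cancel μ ψ, pi_eq_sum_univ (ψ - μ)]
      exact Submodule.add_mem_sup h1 (sum_mem fun r _ => Submodule.smul_mem_smul
        (by simp [RingHom.mem_ker, h2]) trivial)
  refine ⟨D, D.2, fun e => ?_, fun r => ?_⟩
  · rw [RingHom.mem_ker, map_sub, show evh ht D = 0 from e] at h1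
    simp at h1
  · simpa [L, Pi.single_apply, apply_ite] using
      h2 (Submodule.smul_mem_pointwise_smul (Pi.single r 1) D ⊤ trivial)

theorem anti (sy : ∀ n r, x n (-r) = eps δ * x n r) {J : AddSubmonoid ℂ⟦X⟧} {t : ℂ} (ht : ‖t‖ < 1)
    {v : ZMod (2 * N) → ℂ} (h : ∀ ψ : ZMod (2 * N) → ℂ⟦X⟧, (∀ r, ψ r ∈ Cv) →
      ∑ r, ψ r * (mk fun n => x n r) ∈ J → ∑ r, ev (ψ r) t * v r = 0) (r) : v (-r) = eps δ * v r := by
  have := h (fun s => C ((if s = -r then 1 else 0) - if s = r then eps δ else 0)) (fun s => C_mem _)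
    (by
      convert zero_mem J
      ext n
      simp [sub_mul, sy, -map_sub, -map_intCast])
  simpa [sub_mul, sub_eq_zero, -map_sub, -map_intCast] using this

end Du

open Du in
theorem serre (P : PHI) : SERRE := fun N _ δ ok x x0 sup sy H => by
  have h := kp P ok
  have cv : ∀ r, (mk fun n => x n r) ∈ Cv := fun r => mem_of_loc fun t ht t0 => by
    obtain ⟨τ, hτ, rfl⟩ := ex_tq (4 * N) ht t0
    obtain ⟨D, h1, h2, h3⟩ := nak Cv.toAddSubgroup.toAddSubmonoid (fun _ h _ k => Cv.mul_mem h k)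
      (fun r => mk fun n => x n r) ht fun v hv => span P N δ ok τ hτ v (anti sy ht hv) fun k b hb => by
        obtain ⟨h1, u, h2, h3, -⟩ := key ok x0 sup H hb
        simpa only [fn_eq] using hv _ h1 (h2 ▸ expand_mem h3.1)
    exact ⟨D, h1, h2, h3 r⟩
  have fs : ∀ r τ, fn x (-r) τ = eps δ * fn x r τ := fun r τ => by
    simp only [fn, sy, mul_assoc, tsum_mul_left]
  refine ⟨x0, sup, fun r τ hτ => by simpa [tq_pow] using (cv r _ (tq_lt (M := 4 * N) hτ)).norm,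
    fun τ hτ r => ?_⟩
  have z := span P N δ ok τ hτ (fun s => hw τ * ∑ r, conj (sm N δ s r) * fn x r (-1 / τ) -
    τ ^ 2 * fn x s τ) (fun s => by
      rw [fs, ← Equiv.sum_comp (Equiv.neg _)]
      simp only [Equiv.neg_apply, sm_neg, neg_neg, fs, mul_left_comm _ (eps δ : ℂ), ← mul_sum, mul_sub])
    fun k b hb => by
      obtain ⟨h1, u, h2, h3, -⟩ := key ok x0 sup H hb
      have e : ∀ σ : ℂ, 0 < σ.im → ∑ r, fn (fun n r => (b n r : ℂ)) r σ * fn x r σ =
          ev u (tq 1 σ) := fun σ hσ => by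
        rw [← ev_expand (M := 4 * N) h3.1 hσ, ← h2, mul_one,
          ev_sum (tq_lt hσ) _ fun r => mul_mem (h1 r) (cv r)]
        simp only [ev_mul (tq_lt hσ) (h1 _) (cv _), fn_eq]
      have e1 := h3.2 τ hτ
      rw [← e τ hτ, ← e _ (im_S hτ)] at e1
      simp only [hb.md.S τ hτ, mul_assoc, ← mul_sum] at e1
      rw [Kp.adj _ fun r s => by rw [sm_comm]] at e1
      refine mul_left_cancel₀ (pow_ne_zero (2 * k) (ne0 hτ)) ?_
      simp only [mul_sub, sum_sub_distrib, mul_left_comm _ (hw τ), mul_left_comm _ (τ ^ 2), ← mul_sum]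
      linear_combination e1
  have z2 : ∑ s, sm N δ r s * (hw τ * ∑ r, conj (sm N δ s r) * fn x r (-1 / τ) -
      τ ^ 2 * fn x s τ) = 0 := sum_eq_zero fun s _ => by rw [congrFun z s, Pi.zero_apply, mul_zero]
  simp only [mul_sub, sum_sub_distrib, mul_left_comm _ (hw τ), mul_left_comm _ (τ ^ 2), ← mul_sum,
    h.csm] at z2
  rw [div_mul_eq_mul_div, eq_div_iff (hw_ne hτ)]
  linear_combination z2

open Du in
theorem fin (P : PHI) : FIN := fun N _ δ ok => by
  let V : Submodule ℂ (Cf N) :=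
    { carrier := {x | IsS δ x}
      add_mem' := fun {x y} h k => by
        have e : ∀ r (τ : ℂ), 0 < τ.im → fn (x + y) r τ = fn x r τ + fn y r τ := fun r τ hτ => by
          simpa [fn, add_mul] using (h.sum r τ hτ).of_norm.tsum_add (k.sum r τ hτ).of_norm
        refine ⟨fun r => by simp [h.zero, k.zero], fun n r e => by_contra fun i => e ?_,
          fun r τ hτ => by simpa [add_mul] using
            ((h.sum r τ hτ).of_norm.add (k.sum r τ hτ).of_norm).norm, fun τ hτ r => ?_⟩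
        · simp [not_not.1 (mt (h.sup n r) i), not_not.1 (mt (k.sup n r) i)]
        · simp only [e _ τ hτ, e r _ (im_S hτ), h.law τ hτ, k.law τ hτ, mul_add, sum_add_distrib]
      zero_mem' := ⟨by simp, by simp, by simp [summable_zero], by simp [fn]⟩
      smul_mem' := fun c x h => by
        have e : ∀ r τ, fn (c • x) r τ = c * fn x r τ := fun r τ => by
          simp [fn, mul_assoc, tsum_mul_left]
        refine ⟨fun r => by simp [h.zero], fun n r e => h.sup n r (right_ne_zero_of_mul e),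
          fun r τ hτ => by simpa [mul_assoc] using (h.sum r τ hτ).mul_left ‖c‖, fun τ hτ r => ?_⟩
        simp only [e, h.law τ hτ, mul_left_comm _ c, ← mul_sum] }
  let f : ℕ →o (Submodule ℂ (ZMod (2 * N) → ℂ))ᵒᵈ :=
    ⟨fun m =>
      { carrier := {v | ∀ k ≤ m, ∀ b, IF δ k b → ∑ r, fn (fun n r => (b n r : ℂ)) r I * v r = 0}
        add_mem' := fun h h' k hk b hb => by simp [mul_add, sum_add_distrib, h k hk b hb, h' k hk b hb]
        zero_mem' := by simp
        smul_mem' := fun c v h k hk b hb => by simp [mul_left_comm _ c, ← mul_sum, h k hk b hb] },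
      fun _ _ e v h k hk => h k (hk.trans e)⟩
  obtain ⟨m, hm⟩ := IsArtinian.monotone_stabilizes f
  refine ⟨V, fun _ => Iff.rfl, .of_injective ((LinearMap.funLeft ℂ _
    (Fin.val : Fin (4 * N * (m + 1)) → ℕ)).comp V.subtype) ((injective_iff_map_eq_zero _).2
      fun ⟨x, hx⟩ e => Subtype.ext (funext fun n => funext fun r => ?_))⟩
  have t := tq_lt (M := 4 * N) (τ := I) (by simp)
  obtain ⟨D, -, h2, h3⟩ := nak ⊥ (fun _ _ _ k => by simp [AddSubmonoid.mem_bot.1 k])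
    (fun r => mk fun n => x n r) t fun v hv => span P N δ ok I (by simp) v
      (anti (Pe.cf_sym (kp P ok) hx) t hv) fun k => (hm (max m k) (le_max_left _ _) ▸ (fun k hk b hb => by
        obtain ⟨h1, u, h2, -, h3⟩ := key ok hx.zero hx.sup (fun c ⟨a, ha⟩ =>
          ((pair P stk N δ ok _ _ _ ha).2 x hx).trans (by simp [pet, fn])) hb
        have : u = 0 := h3 (X_pow_dvd_iff.2 fun j hj => by
          rw [← coeff_expand_mul (4 * N) (NeZero.ne _), ← h2]
          exact X_pow_dvd_iff.1 (dvd_sum fun r _ => (X_pow_dvd_iff.2 fun i hi => (coeff_mk _ _).trans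
            (congrFun (congrFun e ⟨i, hi⟩) r)).mul_left _) _
            (Nat.mul_lt_mul_of_pos_left (by omega) (NeZero.pos _)))
        simpa only [fn_eq] using hv _ h1 (by rw [h2, this, map_zero]; rfl) :
          v ∈ OrderDual.ofDual (f m)) : v ∈ OrderDual.ofDual (f (max m k))) k (le_max_right _ _)
  simpa using congrArg (coeff n) ((mul_eq_zero.1 (h3 r)).resolve_left fun e => h2 (by simp [e]))

end Vale.Agent.P004Z
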