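import Vale.Agent.P004Z.Du.Th

/-! # P004Z, block G2: enough integral forms -/

set_option linter.all false

open Complex PowerSeries Finset
open scoped Real ComplexConjugate NumberTheorySymbols

noncomputable section

namespace Vale.Agent.P004Z.Du

variable {N : ℕ} [NeZero N] {δ : ℕ}

theorem Ok.nz (h : Ok N δ) : NeZero δ := ⟨fun e => by simpa [e] using h.one⟩

theorem desc (h : Kp N δ) {k : ℕ} {f : ZMod (2 * N) → ℂ⟦X⟧}
    (hf : Fam (4 * (N * δ)) (fun r => conj (tm N δ r)) (sm N δ) (2 * k) f) :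
    ∃ b, IF δ k b ∧ ∀ r (τ : ℂ), 0 < τ.im →
      fn (fun n r => (b n r : ℂ)) r τ = ev (f r) (tq (4 * (N * δ)) τ) := by
  have := Ok.nz h.ok
  have h0 := N_ne (N := N)
  have h1 := N_ne (N := δ)
  choose b hb using fun n r => iz_iff.1 (hf.iz r) (δ * n)
  have e : ∀ r, f r = expand δ (NeZero.ne δ) (mk fun n => (b n r : ℂ)) := fun r => by
    ext n
    by_cases d : δ ∣ n
    · obtain ⟨n, rfl⟩ := d
      rw [coeff_expand_mul, coeff_mk, hb]
    rw [coeff_expand_of_not_dvd _ _ _ d]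
    refine by_contra fun e => d ?_
    have e1 := hf.T r n e
    obtain ⟨x, hx⟩ := ZMod.intCast_surjective ((δ : ZMod (4 * N))⁻¹ * (r.val : ZMod (4 * N)) ^ 2)
    rw [tm, conj_std, neg_neg, ← hx, std_int] at e1
    have := (ee_div_eq_one (a := n - δ * x) (NeZero.ne (4 * (N * δ)))).1 (by
      rw [show ((n - δ * x : ℤ) : ℂ) / (4 * (N * δ) : ℕ) = n / (4 * (N * δ) : ℕ) + -(x / (4 * N : ℕ)) by
        push_cast; field_simp; ring, ee_add, e1, ee_neg, mul_inv_cancel₀ (ee_ne _)])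
    exact_mod_cast (dvd_sub_left (dvd_mul_right (δ : ℤ) x)).1 (Dvd.dvd.trans ⟨4 * N, by push_cast; ring⟩ this)
  have t : ∀ (n : ℕ) (τ : ℂ), ((δ * n : ℕ) : ℂ) * τ / (4 * (N * δ) : ℕ) = n * τ / (4 * N) :=
    fun n τ => by push_cast; field_simp
  have s : ∀ r (τ : ℂ), 0 < τ.im → Summable fun n : ℕ => (b n r : ℂ) * ee (n * τ / (4 * N)) :=
    fun r τ hτ => by
      simpa only [Function.comp_def, hb, tq_pow, t] using (hf.cv r _ (tq_lt (M := 4 * (N * δ))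
        hτ)).comp_injective (mul_right_injective₀ (NeZero.ne δ))
  have v : ∀ r (τ : ℂ), 0 < τ.im →
      fn (fun n r => (b n r : ℂ)) r τ = ev (f r) (tq (4 * (N * δ)) τ) := fun r τ hτ => by
    rw [e, show 4 * (N * δ) = δ * (4 * N) by ring, ev_expand (mem_tq (4 * N) fun τ hτ => by
      simpa using s r τ hτ) hτ, fn_eq]
  have y : ∀ r (τ : ℂ), 0 < τ.im → ev (f r) (tq (4 * (N * δ)) τ) =
      eps δ * ev (f (-r)) (tq (4 * (N * δ)) τ) := fun r τ hτ => by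
    have e := hf.S _ (im_S hτ) r
    simp only [S_S hτ, hf.S τ hτ, mul_left_comm _ (τ ^ (2 * k) * hw τ), ← mul_sum, h.sm2] at e
    have : (-1 / τ) ^ (2 * k) * τ ^ (2 * k) = 1 := by
      rw [← mul_pow, div_mul_cancel₀ _ (ne0 hτ), pow_mul, neg_one_sq, one_pow]
    rw [e]
    linear_combination (eps δ * ev (f (-r)) (tq (4 * (N * δ)) τ)) *
      (this * (hw τ * hw (-1 / τ)) + hw_mul hτ)
  refine ⟨b, ⟨fun n r hn => (tm_iff' h.ok n r).1 ?_, fun r τ hτ => (s r τ hτ).norm,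
    fun τ hτ r => ?_, fun τ hτ r => ?_⟩, v⟩
  · simpa only [mul_one, Int.cast_natCast] using (congrArg ee (t n 1)).symm.trans
      ((congrArg ee (by rw [mul_one])).trans (hf.T r _ (hb n r ▸ Int.cast_ne_zero.2 hn)))
  · rw [v r τ hτ, v r _ (im_T hτ), (hf.T r).law]
  · simp only [v _ τ hτ, h.cs]
    rw [v r _ (im_S hτ), y r _ (im_S hτ), hf.S τ hτ]
    ring

theorem sup_E {ν k : ℕ} [NeZero ν] {m : ℤ} {a c : ℕ} {E : ℂ⟦X⟧}
    (h1 : ∀ D, D ≠ 0 → coeff D E = m * ec ν k a c D) (h2 : coeff 0 E ≠ 0 → (ν : ℤ) ∣ a) :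
    Sup ν (ee (-(a * c) / ν)) E := fun D hD => by
  suffices (ν : ℤ) ∣ D - -(a * c) by simpa using ee_dvd this 1
  rcases eq_or_ne D 0 with rfl | h
  · simpa using (h2 hD).mul_right c
  rw [h1 D h] at hD
  obtain ⟨x, hx, e⟩ := exists_ne_zero_of_sum_ne_zero (Int.cast_ne_zero.1 (right_ne_zero_of_mul hD))
  rw [← (Nat.mem_divisorsAntidiagonal.1 hx).1, Nat.cast_mul]
  by_cases e1 : (ν : ℤ) ∣ x.1 - a ∧ (ν : ℤ) ∣ -x.2 - c
  · exact (by ring : (x.1 - a : ℤ) * x.2 - a * (-x.2 - c) = x.1 * x.2 - -(a * c)) ▸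
      (e1.1.mul_right x.2).sub (e1.2.mul_left a)
  by_cases e2 : (ν : ℤ) ∣ -x.1 - a ∧ (ν : ℤ) ∣ x.2 - c
  · exact (by ring : (-x.1 - a : ℤ) * -x.2 - a * (x.2 - c) = x.1 * x.2 - -(a * c)) ▸
      (e2.1.mul_right (-x.2)).sub (e2.2.mul_left a)
  simp [e1, e2] at e

theorem sum_ind2 {ν : ℕ} [NeZero ν] (W : ℤ → ℤ → ℂ) (hW : ∀ a c x y, W (a + ν * x) (c + ν * y) = W a c)
    (x y : ℤ) : ∑ a ∈ range ν, ∑ c ∈ range ν,
      W a c * (if (ν : ℤ) ∣ x - (a : ℕ) ∧ (ν : ℤ) ∣ y - (c : ℕ) then 1 else 0) = W x y := by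
  simp only [ite_and, mul_ite, mul_one, mul_zero, sum_ite_irrel, sum_const_zero]
  rw [sum_ind (fun a => ∑ c ∈ range ν, if (ν : ℤ) ∣ y - (c : ℕ) then W a c else 0), sum_ind (W x)]
  · rintro c c' ⟨e, h⟩
    simpa [sub_eq_iff_eq_add'.1 h] using hW x c' 0 e
  · rintro a a' ⟨e, h⟩
    refine sum_congr rfl fun c _ => ?_
    rw [sub_eq_iff_eq_add'.1 h, ← hW a' c e 0, mul_zero, add_zero]

theorem gc_sq (a b : ℤ) : gc δ (a, b, -1) ^ 2 = 1 := by
  rw [gc, ← prod_pow]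
  refine prod_eq_one fun p hp => ?_
  split_ifs with h
  · exact jacobiSym.sq_one (by simp)
  · exact jacobiSym.sq_one (Int.isCoprime_iff_gcd_eq_one.1 ((Nat.prime_iff_prime_int.1
      (Nat.prime_of_mem_primeFactors hp)).irreducible.coprime_iff_not_dvd.2 h).symm)

theorem six {ι : Type} [Fintype ι] (s : Finset ℕ) (φ : ℕ → ι → ℕ → ℂ) (K : ℕ → ℕ → ℕ → ℕ → ℂ)
    (L : ι → ι → ℂ) (E : ℕ → ℕ → ℂ) (F : ι → ℂ) : ∑ a ∈ s, ∑ b, ∑ c ∈ s, φ a b c *
      ((∑ a' ∈ s, ∑ c' ∈ s, K a c a' c' * E a' c') * ∑ b', L b b' * F b') = ∑ a' ∈ s, ∑ b', ∑ c' ∈ s,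
        (∑ a ∈ s, ∑ b, ∑ c ∈ s, φ a b c * (K a c a' c' * L b b')) * (E a' c' * F b') := by
  have h : ∀ g : ℕ → ι → ℕ → ℂ, ∑ a ∈ s, ∑ b, ∑ c ∈ s, g a b c =
      ∑ l ∈ s ×ˢ univ ×ˢ s, g l.1 l.2.1 l.2.2 := fun g => by simp [sum_product]
  have e : ∀ a b c, (∑ a' ∈ s, ∑ c' ∈ s, K a c a' c' * E a' c') * ∑ b', L b b' * F b' =
      ∑ a' ∈ s, ∑ b', ∑ c' ∈ s, K a c a' c' * L b b' * (E a' c' * F b') := fun a b c => by
    simp only [sum_mul, mul_sum]
    rw [sum_comm]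
    exact sum_congr rfl fun a' _ => sum_congr rfl fun b' _ => sum_congr rfl fun c' _ => by ring
  simp only [e, h]
  simp only [mul_sum, sum_mul]
  rw [sum_comm]
  exact sum_congr rfl fun _ _ => sum_congr rfl fun _ _ => by ring

theorem comb (P : PHI) (ok : Ok N δ) [NeZero δ] {k w : ℕ} {E : ℕ → ℕ → ℂ⟦X⟧}
    (E1 : ∀ a c, E a c ∈ Cv ∧ E a c ∈ IZ) (E2 : ∀ a ∈ range (N * δ), ∀ c ∈ range (N * δ),
      Sup (N * δ) (ee (-(a * c) / (N * δ : ℕ))) (E a c) ∧ ∀ τ : ℂ, 0 < τ.im →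
        ev (E a c) (tq (N * δ) (-1 / τ)) = τ ^ k / (N * δ : ℕ) * ∑ a' ∈ range (N * δ),
          ∑ c' ∈ range (N * δ), ee ((a * c' + a' * c) / (N * δ : ℕ)) * ev (E a' c') (tq (N * δ) τ))
    {F : Fin (2 * (N * δ)) → ℂ⟦X⟧} (hF : Fam (4 * (N * δ))
      (fun b : Fin (2 * (N * δ)) => ee (b ^ 2 / (4 * (N * δ : ℕ)))) (fun b b' =>
        ((√(2 * (N * δ : ℕ) : ℝ) : ℝ) : ℂ)⁻¹ * ee (-(b * b') / (2 * (N * δ : ℕ)))) w F) :
    ∃ f : ZMod (2 * N) → ℂ⟦X⟧, (∀ r (σ : ℂ), 0 < σ.im → ev (f r) (tq (4 * (N * δ)) σ) =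
      ∑ a ∈ range (N * δ), ∑ b : Fin (2 * (N * δ)), ∑ c ∈ range (N * δ), ph N δ r (a, (b : ℕ), c) *
        (ev (E a c) (tq (N * δ) σ) * ev (F b) (tq (4 * (N * δ)) σ))) ∧
      Fam (4 * (N * δ)) (fun r => conj (tm N δ r)) (sm N δ) (k + w) f := by
  obtain ⟨-, p2, p3, -⟩ := P N δ ok
  have n0 := N_ne (N := N * δ)
  have cv : ∀ a c, expand 4 (NeZero.ne 4) (E a c) ∈ Cv := fun a c => expand_mem (E1 a c).1
  let f : ZMod (2 * N) → ℂ⟦X⟧ := fun r => ∑ a ∈ range (N * δ), ∑ b : Fin (2 * (N * δ)),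
    ∑ c ∈ range (N * δ), C (ph N δ r (a, (b : ℕ), c) : ℂ) * (expand 4 (NeZero.ne 4) (E a c) * F b)
  have m1 := fun (r : ZMod (2 * N)) (a : ℕ) (b : Fin (2 * (N * δ))) (c : ℕ) =>
    mul_mem (C_mem (ph N δ r (a, (b : ℕ), c) : ℂ)) (mul_mem (cv a c) (hF.cv b))
  have ef : ∀ r (σ : ℂ), 0 < σ.im → ev (f r) (tq (4 * (N * δ)) σ) = ∑ a ∈ range (N * δ),
      ∑ b : Fin (2 * (N * δ)), ∑ c ∈ range (N * δ), ph N δ r (a, (b : ℕ), c) *
        (ev (E a c) (tq (N * δ) σ) * ev (F b) (tq (4 * (N * δ)) σ)) := fun r σ hσ => by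
    have t := tq_lt (M := 4 * (N * δ)) hσ
    simp only [f, ev_sum t _ fun a => sum_mem fun b _ => sum_mem fun c _ => m1 r a b c,
      ev_sum t _ fun b => sum_mem fun c _ => m1 r _ b c, ev_sum t _ (m1 r _ _),
      ev_Cmul t (mul_mem (cv _ _) (hF.cv _)), ev_mul t (cv _ _) (hF.cv _), ev_expand (E1 _ _).1 hσ]
  refine ⟨f, ef, ?_⟩
  refine ⟨fun r => sum_mem fun a _ => sum_mem fun b _ => sum_mem fun c _ => m1 r a b c,
    fun r => sum_mem fun a _ => sum_mem fun b _ => sum_mem fun c _ =>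
      mul_mem (C_iz _) (mul_mem (expand_iz (E1 a c).2) (hF.iz b)),
    fun r => .sum fun a ha => .sum fun b _ => .sum fun c hc => .Cmul fun k => ?_,
    fun σ hσ r => ?_⟩
  · convert (E2 a ha c hc).1.expand.mul (hF.T b) using 1
    rw [← p3 r _ (Int.cast_ne_zero.1 k), conj_ee, ← ee_add]
    congr 1
    simp only [disc, map_div₀, map_neg, map_intCast, map_mul, map_ofNat, map_natCast]
    push_cast at n0 ⊢
    field_simp
    ring
  · have q : ((√(2 * (N * δ : ℕ) ^ 3 : ℝ) : ℝ) : ℂ) = (N * δ : ℕ) * (√(2 * (N * δ : ℕ) : ℝ) : ℝ) := by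
      rw [show (2 * (N * δ : ℕ) ^ 3 : ℝ) = (N * δ : ℕ) ^ 2 * (2 * (N * δ : ℕ)) by ring,
        Real.sqrt_mul (sq_nonneg _), Real.sqrt_sq (Nat.cast_nonneg _), ofReal_mul, ofReal_natCast]
    have : ∑ s, sm N δ r s * ev (f s) (tq (4 * (N * δ)) σ) = ∑ a ∈ range (N * δ),
        ∑ b : Fin (2 * (N * δ)), ∑ c ∈ range (N * δ), ft (N * δ) (fun l => ph N δ r l)
          (a, (b : ℕ), c) * (ev (E a c) (tq (N * δ) σ) * ev (F b) (tq (4 * (N * δ)) σ)) := by
      simp only [ef _ σ hσ, p2, mul_sum, sum_mul, mul_assoc]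
      rw [sum_comm]
      refine sum_congr rfl fun a _ => ?_
      rw [sum_comm]
      exact sum_congr rfl fun b _ => sum_comm
    rw [this, ef r _ (im_S hσ), sum_congr rfl fun a ha => sum_congr rfl fun b _ =>
      sum_congr rfl fun c hc => by rw [(E2 a ha c hc).2 σ hσ, hF.S σ hσ, mul_mul_mul_comm, mul_left_comm]]
    simp only [← mul_sum]
    rw [six]
    simp only [ft, q, sum_range (n := 2 * (N * δ)), mul_sum, sum_mul]
    refine sum_congr rfl fun a _ => sum_congr rfl fun b _ => sum_congr rfl fun c _ =>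
      sum_congr rfl fun a' _ => sum_congr rfl fun b' _ => sum_congr rfl fun c' _ => ?_
    rw [show (bil (a', (b' : ℕ), c') (a, (b : ℕ), c) : ℂ) / (2 * (N * δ : ℕ)) =
      (a' * c + a * c') / (N * δ : ℕ) + -(b' * b) / (2 * (N * δ : ℕ)) by
        rw [bil]; push_cast at n0 ⊢; field_simp; ring, ee_add]
    ring

end Du

open Du in
theorem span (P : PHI) : SPAN := fun N _ δ ok τ hτ v hv H => by
  have h := kp P ok
  have := Ok.nz ok
  obtain ⟨p1, -, -, -, -, p6, -⟩ := P N δ ok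
  obtain ⟨e, he, e1⟩ : ∃ e ≤ 1, (eps δ : ℂ) = (-1) ^ e :=
    (mul_self_eq_one_iff.1 (eps_sq ok)).elim (fun k => ⟨0, by simp, by simp [k]⟩)
      fun k => ⟨1, le_rfl, by simp [k]⟩
  obtain ⟨m, E, m0, E1, E2⟩ := eis (k := 3 + e) (N * δ) (by omega)
  let W : Fm → ℂ := fun l => ∑ r, v r * ph N δ r l
  let U : ℂ → ℤ → ℂ := fun σ b => ∑ a ∈ range (N * δ), ∑ c ∈ range (N * δ),
    W (a, b, c) * ev (E a c) (tq (N * δ) σ)
  have w1 : ∀ l m : Fm, W (l.1 + (N * δ : ℕ) * m.1, l.2.1 + 2 * (N * δ : ℕ) * m.2.1,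
      l.2.2 + (N * δ : ℕ) * m.2.2) = W l := fun l m => sum_congr rfl fun r _ => congrArg (v r * ·) (p1 r l m)
  have w2 : ∀ a b c, W (a, -b, c) = eps δ * W (a, b, c) := fun a b c => by
    simp only [W, mul_sum]
    rw [← Equiv.sum_comp (Equiv.neg _)]
    exact sum_congr rfl fun r _ => by simp [hv, ph, disc, gc, mul_assoc]
  have w3 : ∀ a b c, W (-a, b, c) = eps δ * W (a, b, -c) := fun a b c => by
    rw [← w2]
    simp only [W]
    rw [← Equiv.sum_comp (Equiv.neg _)]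
    refine sum_congr rfl fun r _ => ?_
    have := congrArg (Int.cast : ℤ → ℂ) (p6 r (a, -b, -c))
    simp only [Prod.neg_mk, neg_neg, Int.cast_mul] at this
    rw [Equiv.neg_apply, this, hv]
    linear_combination v r * ph N δ r (a, -b, -c) * eps_sq ok
  have u0 : ∀ σ : ℂ, 0 < σ.im → ∑ b : Fin (2 * (N * δ)), C (U σ (b : ℕ)) * th (N * δ) e b = 0 := by
    refine fun σ hσ => kill (M := 4 * (N * δ)) e _ hσ (fun w F hF hw => ?_) (th_fam he) ⟨e, rfl⟩
    obtain ⟨f, ef, hf⟩ := comb P ok (fun a c => E1 a c) (fun a ha c hc => ⟨sup_E (E2 a ha c hc).1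
      (E2 a ha c hc).2.1, (E2 a ha c hc).2.2⟩) hF
    have z := kill (M := 4 * (N * δ)) 0 v hτ (fun w f hf hw => by
      obtain ⟨k, rfl⟩ : ∃ k, w = 2 * k := hw.two_dvd
      obtain ⟨b, h1, h2⟩ := desc h hf
      simpa only [h2 _ τ hτ, mul_comm] using H k b h1) hf (by
        obtain ⟨k, hk⟩ := hw
        exact ⟨k + 2, by rw [show 3 + e + 1 + w + 0 = w + e + 4 by ring, hk]; ring⟩)
    have z2 := congrArg (ev · (tq (4 * (N * δ)) σ)) z
    simp only [ev_sum (tq_lt hσ) _ fun r => mul_mem (C_mem (v r)) (hf.cv r), ev_zero,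
      ev_Cmul (tq_lt hσ) (hf.cv _), ef _ σ hσ, mul_sum] at z2
    simp only [← z2, U, W, sum_mul, mul_assoc]
    rw [sum_comm, sum_comm (s := univ) (t := range _)]
    refine sum_congr rfl fun a _ => ?_
    rw [sum_comm (s := univ) (t := univ)]
    exact sum_congr rfl fun b _ => sum_comm
  have u1 : ∀ j : ℕ, j ≠ 0 → ∑ a ∈ range (N * δ), ∑ c ∈ range (N * δ),
      C (W (a, j, c)) * E a c = 0 := fun j hj => by
    have m1 := fun a c : ℕ => mul_mem (C_mem (W (a, j, c))) (E1 a c).1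
    refine uniq_tq (N * δ) (sum_mem fun a _ => sum_mem fun c _ => m1 a c) (zero_mem _) fun σ hσ => ?_
    have := congrArg (coeff (j ^ 2)) (u0 σ hσ)
    have i := fun t : ℤ => sum_ind (ν := 2 * (N * δ)) (fun b => U σ b * t ^ e) (by
      rintro x y ⟨c, hc⟩
      simp only [U, sub_eq_iff_eq_add'.1 hc]
      refine congrArg (· * _) (sum_congr rfl fun a _ => sum_congr rfl fun c' _ => ?_)
      simpa using congrArg (· * ev (E a c') (tq (N * δ) σ)) (w1 (a, y, c') (0, c, 0))) t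
    simp only [sum_range] at i
    simp only [map_sum, coeff_C_mul, th, sq1, map_sub, coeff_mk, sq_inj.extend_apply, coeff_C,
      pow_eq_zero_iff two_ne_zero, hj, if_false, sub_zero, mul_add, sum_add_distrib, Int.cast_ite,
      mul_ite, Int.cast_zero, mul_zero, Int.cast_pow, i, map_zero] at this
    have u : U σ (-j) = eps δ * U σ j := by simp only [U, w2, mul_sum, mul_assoc]
    rw [u, Int.cast_neg, neg_pow, ← e1] at this
    simp only [ev_sum (tq_lt hσ) _ fun a => sum_mem fun c _ => m1 a c, ev_sum (tq_lt hσ) _ (m1 _),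
      ev_Cmul (tq_lt hσ) (E1 _ _).1, ev_zero]
    refine mul_right_cancel₀ (a := U σ j) (b := 2 * ((j : ℤ) : ℂ) ^ e) (by simp [hj]) ?_
    linear_combination this - U σ j * (j : ℤ) ^ e * eps_sq ok
  funext r
  obtain ⟨l, -, hl, e2⟩ := Nat.forall_exists_prime_gt_and_zmodEq 0 (NeZero.ne δ) (a := -N)
    (Nat.isCoprime_iff_coprime.2 ok.cop).neg_left
  obtain ⟨j, j1, j2⟩ := Nat.chineseRemainder (cop2 ok).symm r.val (2 * N)
  have j3 : ((j + 2 * N * δ : ℕ) : ZMod (2 * N)) = r := by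
    simp [(ZMod.natCast_eq_natCast_iff _ _ _).2 j1, -Nat.cast_ofNat]
  have j4 : (δ : ℤ) ∣ (j + 2 * N * δ : ℕ) ^ 2 + 4 * (N * l) := by
    have := (ZMod.natCast_eq_natCast_iff _ _ _).2 j2
    have e3 := (ZMod.intCast_eq_intCast_iff _ _ _).2 e2
    rw [← ZMod.intCast_zmod_eq_zero_iff_dvd]
    push_cast at this e3 ⊢
    rw [this, e3, ZMod.natCast_self]
    ring
  generalize hJ : j + 2 * N * δ = J at j3 j4
  have D0 := mul_ne_zero (NeZero.ne N) hl.ne_zero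
  have c := congrArg (coeff (N * l)) (u1 J (by have := NeZero.pos (2 * N * δ); omega))
  simp only [map_sum, coeff_C_mul, map_zero] at c
  rw [sum_congr rfl fun a ha => sum_congr rfl fun c hc => by rw [(E2 a ha c hc).1 _ D0]] at c
  have i := sum_ind2 (fun a c => W (a, J, c)) fun a c x y => by
    simpa only [mul_zero, add_zero] using w1 (a, J, c) (x, 0, y)
  have wv : ∀ a c, W (a, J, c) = v r * ph N δ r (a, J, c) := fun a c =>
    sum_eq_single r (fun s _ hs => by simp [ph, j3, hs.symm]) (by simp)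
  have c2 : v r * (∑ x ∈ (N * l).divisorsAntidiagonal,
      ph N δ r (x.1, J, -x.2) * x.2 ^ (3 + e) : ℤ) = 0 := by
    refine mul_left_cancel₀ (a := 2 * (m : ℂ)) (by simpa) ?_
    rw [mul_zero, ← c]
    simp only [ec, Int.cast_sum, mul_sum]
    rw [sum_congr rfl fun a _ => sum_comm, sum_comm]
    refine sum_congr rfl fun x _ => ?_
    have a1 := i x.1 (-x.2)
    have a2 := i (-x.1) x.2
    rw [w3] at a2
    rw [wv] at a1 a2
    simp only [Int.cast_mul, Int.cast_add, Int.cast_ite, Int.cast_one, Int.cast_zero, Int.cast_pow,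
      Int.cast_neg, show 3 + e + 1 = 4 + e by ring, pow_add (-1 : ℂ), ← e1,
      show ∀ W m A s B y : ℂ, W * (m * ((A + s * B) * y)) = m * y * (W * A) + m * y * s * (W * B) by
        intros; ring, sum_add_distrib, ← mul_sum, a1, a2]
    linear_combination (-m * v r * ph N δ r (x.1, J, -x.2) * (x.2 : ℤ) ^ (3 + e)) * eps_sq ok
  refine (mul_eq_zero.1 c2).resolve_right fun z => hl.not_dvd_one ?_
  rw [Int.cast_eq_zero, ← add_sum_erase _ _ (a := (N * l, 1)) (by simp [D0]),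
    add_eq_zero_iff_eq_neg] at z
  have := gc_sq (δ := δ) (N * l) J
  rw [ph, if_pos ⟨by simp, by simpa using j3, by simpa [disc] using j4⟩] at z
  simp only [Nat.cast_mul, Nat.cast_one, one_pow, mul_one] at z
  rw [← Int.natCast_dvd_natCast, Nat.cast_one, ← this, z]
  refine dvd_pow (dvd_neg.2 (dvd_sum fun x hx => ?_)) two_ne_zero
  obtain ⟨x1, x2⟩ := mem_erase.1 hx
  have x3 := (Nat.mem_divisorsAntidiagonal.1 x2).1
  rw [ph]
  split_ifs with k
  · obtain ⟨y, hy⟩ := Int.natCast_dvd_natCast.1 k.1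
    rw [hy, mul_assoc, mul_right_inj' (NeZero.ne N)] at x3
    rcases (Nat.dvd_prime hl).1 (Dvd.intro_left y x3) with k | k
    · exact absurd (Prod.ext (by rw [hy, ← x3, k, mul_one]) k) x1
    · exact (dvd_pow (k ▸ dvd_rfl) (by omega)).mul_left _
  · simp

end Vale.Agent.P004Z
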