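import Vale.Agent.P004Z.Kf.St

/-! # P004Z, block G2: words -/

open Complex
open scoped ComplexConjugate

noncomputable section

namespace Vale.Agent.P004Z.Du

variable {N : ℕ} [NeZero N] (δ : ℕ)

/-- the laws of weight `1/2 + 2 k` (no regularity) -/
structure Md (k : ℕ) (F : ZMod (2 * N) → ℂ → ℂ) : Prop where
  T : ∀ τ : ℂ, 0 < τ.im → ∀ r, F r (τ + 1) = conj (tm N δ r) * F r τ
  S : ∀ τ : ℂ, 0 < τ.im → ∀ r,
    F r (-1 / τ) = τ ^ (2 * k) * hw τ * ∑ s, conj (sm N δ r s) * F s τ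

/-- holomorphic forms of weight `1/2 + 2 k` with integer coefficients -/
structure IF (k : ℕ) (b : ℕ → ZMod (2 * N) → ℤ) : Prop where
  sup : ∀ n r, b n r ≠ 0 → In N δ (-n) r
  sum : ∀ r (τ : ℂ), 0 < τ.im → Summable fun n : ℕ => ‖(b n r : ℂ) * ee (n * τ / (4 * N))‖
  md : Md δ k (fn fun n r => (b n r : ℂ))

/-- at every point the values of the integral forms span the symmetric vectors -/
def SPAN : Prop := ∀ (N : ℕ) [NeZero N] (δ : ℕ), Ok N δ → ∀ τ : ℂ, 0 < τ.im →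
  ∀ v : ZMod (2 * N) → ℂ, (∀ r, v (-r) = eps δ * v r) →
    (∀ k b, IF δ k b → ∑ r, fn (fun n r => (b n r : ℂ)) r τ * v r = 0) → v = 0

end Vale.Agent.P004Z.Du
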