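import Vale.Agent.P004Z.Du.Ei

/-! # P004Z, block G2: families of series, the bracket with `Δ`, theta series -/

set_option linter.all false

open Complex PowerSeries Finset Filter Topology
open scoped Real

noncomputable section

namespace Vale.Agent.P004Z.Du

open P022.H790.A (DZ)

/-- the law under `T`, on coefficients -/
def Sup (M : ℕ) (c : ℂ) (P : ℂ⟦X⟧) : Prop := ∀ n : ℕ, coeff n P ≠ 0 → ee (n / M) = c

variable {M : ℕ} [NeZero M] {c d τ : ℂ} {P Q : ℂ⟦X⟧}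

namespace Sup

theorem mul (h : Sup M c P) (h' : Sup M d Q) : Sup M (c * d) (P * Q) := fun n hn => by
  rw [coeff_mul] at hn
  obtain ⟨p, hp, e⟩ := exists_ne_zero_of_sum_ne_zero hn
  rw [← h _ (left_ne_zero_of_mul e), ← h' _ (right_ne_zero_of_mul e), ← ee_add, ← add_div,
    ← Nat.cast_add, Finset.HasAntidiagonal.mem_antidiagonal.1 hp]

theorem mul1 (h : Sup M 1 P) (h' : Sup M d Q) : Sup M d (P * Q) := one_mul d ▸ h.mul h'

theorem sub (h : Sup M c P) (h' : Sup M c Q) : Sup M c (P - Q) := fun n hn => by_contra fun e =>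
  hn (by rw [map_sub, not_not.1 (mt (h n) e), not_not.1 (mt (h' n) e), sub_zero])

theorem sum {ι : Type} {s : Finset ι} {F : ι → ℂ⟦X⟧} (h : ∀ i ∈ s, Sup M c (F i)) :
    Sup M c (∑ i ∈ s, F i) := fun n hn => by
  rw [map_sum] at hn
  obtain ⟨i, hi, e⟩ := exists_ne_zero_of_sum_ne_zero hn
  exact h i hi n e

theorem C (a : ℂ) : Sup M 1 (C a) := fun n hn => by
  rw [show n = 0 from by_contra fun e => hn (by simp [coeff_C, e])]
  simp

theorem Cmul {a : ℂ} (h : a ≠ 0 → Sup M c P) : Sup M c (PowerSeries.C a * P) := fun n hn => by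
  rw [coeff_C_mul] at hn
  exact h (left_ne_zero_of_mul hn) n (right_ne_zero_of_mul hn)

theorem dq (h : Sup M c P) : Sup M c (dq P) := fun n hn =>
  h n (right_ne_zero_of_mul (by rwa [Du.dq, coeff_mk] at hn))

theorem expand {K : ℕ} (h : Sup K c P) : Sup (M * K) c (expand M (NeZero.ne M) P) := fun n hn => by
  obtain ⟨m, rfl⟩ : M ∣ n := by_contra fun e => hn (coeff_expand_of_not_dvd _ _ _ e)
  rw [coeff_expand_mul] at hn
  rw [← h m hn, Nat.cast_mul, Nat.cast_mul, mul_div_mul_left _ _ N_ne]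

theorem one (P : ℂ⟦X⟧) : Sup 1 1 P := fun n _ => by simpa using ee_int n

theorem law (h : Sup M c P) (τ : ℂ) : ev P (tq M (τ + 1)) = c * ev P (tq M τ) := by
  rw [ev, ev, ← tsum_mul_left]
  refine tsum_congr fun n => ?_
  by_cases e : coeff n P = 0
  · simp [e]
  rw [tq_pow, tq_pow, ← h n e, mul_add, add_div, ee_add, mul_one]
  ring

end Sup

theorem dq_iz (h : P ∈ IZ) : dq P ∈ IZ := iz_iff.2 fun n => by
  obtain ⟨z, e⟩ := iz_iff.1 h n
  exact ⟨n * z, by simp [dq, e]⟩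

theorem expand_iz (h : P ∈ IZ) : expand M (NeZero.ne M) P ∈ IZ := iz_iff.2 fun n => by
  rw [coeff_expand]
  split_ifs
  exacts [iz_iff.1 h _, ⟨0, by simp⟩]

theorem C_iz (z : ℤ) : C (z : ℂ) ∈ IZ := ⟨C z, by simp⟩

variable (M) in
/-- an integral series in `q`, read in `e(τ / M)` -/
def up (Z : ℤ⟦X⟧) : ℂ⟦X⟧ := expand M (NeZero.ne M) (Z.map (Int.castRingHom ℂ))

theorem up_iz (Z : ℤ⟦X⟧) : up M Z ∈ IZ := expand_iz ⟨Z, rfl⟩

theorem up_sup (Z : ℤ⟦X⟧) : Sup M 1 (up M Z) := by simpa [up] using (Sup.one _).expand (M := M)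

theorem ev_up {Z : ℤ⟦X⟧} (h : Z.map (Int.castRingHom ℂ) ∈ Cv) (hτ : 0 < τ.im) :
    ev (up M Z) (tq M τ) = ev (Z.map (Int.castRingHom ℂ)) (tq 1 τ) := by
  simpa [up] using ev_expand (M := M) (K := 1) h hτ

theorem L1.up {k : ℕ} {Z : ℤ⟦X⟧} (h : L1 k Z) (hτ : 0 < τ.im) :
    ev (up M Z) (tq M (-1 / τ)) = τ ^ k * ev (up M Z) (tq M τ) := by
  rw [ev_up h.cv hτ, ev_up h.cv (im_S hτ), h.law τ hτ]

variable {ι : Type} [Fintype ι]

variable (M) in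
/-- a family of integral series of weight `w + 1/2` -/
structure Fam (c : ι → ℂ) (A : ι → ι → ℂ) (w : ℕ) (P : ι → ℂ⟦X⟧) : Prop where
  cv : ∀ i, P i ∈ Cv
  iz : ∀ i, P i ∈ IZ
  T : ∀ i, Sup M (c i) (P i)
  S : ∀ τ : ℂ, 0 < τ.im → ∀ i,
    ev (P i) (tq M (-1 / τ)) = τ ^ w * hw τ * ∑ j, A i j * ev (P j) (tq M τ)

theorem dlaw (hP : P ∈ Cv) (hτ : 0 < τ.im) {R : ℂ → ℂ} {R' : ℂ} (hR : HasDerivAt R R' τ)
    (h : ∀ τ : ℂ, 0 < τ.im → ev P (tq M (-1 / τ)) = R τ) :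
    2 * π * I / M * ev (dq P) (tq M (-1 / τ)) = τ ^ 2 * R' := by
  have h0 := ne0 hτ
  have h1 := (der_tq (M := M) hP (im_S hτ)).comp τ ((hasDerivAt_const τ (-1 : ℂ)).div
    (hasDerivAt_id τ) h0)
  rw [← (h1.congr_of_eventuallyEq (f₁ := R) (by
    filter_upwards [(isOpen_lt continuous_const continuous_im).mem_nhds hτ] with σ hσ
    exact (h σ hσ).symm)).unique hR]
  field_simp
  simp

theorem hw_der (hτ : 0 < τ.im) : HasDerivAt hw (hw τ / (2 * τ)) τ := by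
  have h := (hw_diff hτ).hasDerivAt
  have e : HasDerivAt (fun σ => hw σ ^ 2) (1 / I) τ := by
    simp only [hw_sq]
    exact (hasDerivAt_id τ).div_const I
  have e2 := (h.pow 2).unique e
  have := ne0 hτ
  refine h.congr_deriv (mul_left_cancel₀ (hw_ne hτ) ?_)
  rw [← mul_div_assoc, ← sq, hw_sq, eq_div_iff (by simpa), div_eq_mul_one_div τ, ← e2]
  simp
  ring

variable (M) in
/-- the bracket with `Δ` -/
def rc (w : ℕ) (P : ι → ℂ⟦X⟧) (i : ι) : ℂ⟦X⟧ :=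
  C ((2 * w + 1 : ℤ) : ℂ) * dq (up M DZ) * P i - C ((24 : ℤ) : ℂ) * up M DZ * dq (P i)

variable {cc : ι → ℂ} {A : ι → ι → ℂ} {w : ℕ} {F : ι → ℂ⟦X⟧}

theorem D_mem : up M DZ ∈ Cv := expand_mem l1_D.cv

theorem Fam.rc (h : Fam M cc A w F) : Fam M cc A (w + 14) (rc M w F) := by
  have m1 := mul_mem (C_mem ((2 * w + 1 : ℤ) : ℂ)) (dq_mem (D_mem (M := M)))
  have m2 := mul_mem (C_mem ((24 : ℤ) : ℂ)) (D_mem (M := M))
  refine ⟨fun i => sub_mem (mul_mem m1 (h.cv i)) (mul_mem m2 (dq_mem (h.cv i))),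
    fun i => sub_mem (mul_mem (mul_mem (C_iz _) (dq_iz (up_iz _))) (h.iz i))
      (mul_mem (mul_mem (C_iz _) (up_iz _)) (dq_iz (h.iz i))),
    fun i => (((Sup.C _).mul1 (up_sup _).dq).mul1 (h.T i)).sub
      (((Sup.C _).mul1 (up_sup _)).mul1 (h.T i).dq), fun τ hτ i => ?_⟩
  have e : ∀ i (σ : ℂ), 0 < σ.im → ev (Du.rc M w F i) (tq M σ) = (2 * w + 1) * ev (dq (up M DZ))
      (tq M σ) * ev (F i) (tq M σ) - 24 * ev (up M DZ) (tq M σ) * ev (dq (F i)) (tq M σ) :=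
    fun i σ hσ => by
      have t := tq_lt (M := M) hσ
      rw [Du.rc, ev_sub t (mul_mem m1 (h.cv i)) (mul_mem m2 (dq_mem (h.cv i))), ev_mul t m1 (h.cv i),
        ev_mul t m2 (dq_mem (h.cv i)), ev_Cmul t (dq_mem D_mem), ev_Cmul t D_mem]
      push_cast
      rfl
  have l0 : 2 * π * I / M ≠ 0 := div_ne_zero two_pi_I_ne_zero N_ne
  have h0 := ne0 hτ
  have d1 := dlaw (M := M) D_mem hτ ((hasDerivAt_pow 12 τ).mul (der_tq (M := M) (D_mem (M := M)) hτ))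
    fun σ hσ => l1_D.up hσ
  have d2 := dlaw (h.cv i) hτ (((hasDerivAt_pow w τ).mul (hw_der hτ)).mul
    (HasDerivAt.fun_sum fun j _ => (der_tq (h.cv j) hτ).const_mul (A i j))) fun σ hσ => h.S σ hσ i
  have d3 : (w : ℂ) * τ ^ (w - 1) * τ = w * τ ^ w := by cases w <;> simp [pow_succ, mul_assoc]
  have d4 : hw τ / (2 * τ) * τ * 2 = hw τ := by field_simp
  simp only [e _ _ hτ, e _ _ (im_S hτ), mul_sub, sum_sub_distrib, mul_left_comm (A i _), ← mul_sum,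
    Pi.mul_apply, l1_D.up hτ, h.S τ hτ i] at d1 d2 ⊢
  refine mul_left_cancel₀ l0 ?_
  generalize 2 * π * I / M = l at *
  linear_combination (2 * w + 1) * (τ ^ w * hw τ * ∑ j, A i j * ev (F j) (tq M τ)) * d1 -
    24 * τ ^ 12 * ev (up M DZ) (tq M τ) * d2 -
    24 * τ ^ 13 * ev (up M DZ) (tq M τ) * (∑ j, A i j * ev (F j) (tq M τ)) *
      (hw τ * d3 + τ ^ w / 2 * d4)

theorem dq_sum (v : ι → ℂ) (F : ι → ℂ⟦X⟧) : dq (∑ i, C (v i) * F i) = ∑ i, C (v i) * dq (F i) := by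
  ext n
  simp [dq, mul_sum, mul_left_comm]

/-- a vector killing the values at one point of all families kills them -/
theorem kill (e : ℕ) (v : ι → ℂ) (hτ : 0 < τ.im) (hv : ∀ w F, Fam M cc A w F → Even (w + e) →
    ∑ i, v i * ev (F i) (tq M τ) = 0) (h : Fam M cc A w F) (he : Even (w + e)) :
    ∑ i, C (v i) * F i = 0 := by
  refine ord (L := {G | ∃ w F, Fam M cc A w F ∧ Even (w + e) ∧ G = ∑ i, C (v i) * F i})
    (tq_lt (M := M) hτ) (ee_ne _) ?_ _ ⟨w, F, h, he, rfl⟩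
  rintro _ ⟨w, F, h, he, rfl⟩
  have m := fun i => mul_mem (C_mem (v i)) (h.cv i)
  refine ⟨sum_mem fun i _ => m i, ?_, _, mul_mem (C_mem ((2 * w + 1 : ℤ) : ℂ)) (dq_mem (D_mem (M := M))),
    _, mul_mem (C_mem ((24 : ℤ) : ℂ)) (D_mem (M := M)), ?_, _, _, h.rc, ?_, ?_⟩
  · simpa only [ev_sum (tq_lt hτ) _ m, ev_Cmul (tq_lt hτ) (h.cv _)] using hv w F h he
  · rw [ev_Cmul (tq_lt hτ) D_mem, ev_up l1_D.cv hτ]
    exact mul_ne_zero (by simp) (D_ne hτ)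
  · rw [add_right_comm]
    exact he.add (by decide)
  · simp only [dq_sum, rc, mul_sum, mul_sub, sum_sub_distrib, mul_left_comm (C (v _))]

/-! ### theta series -/

/-- `∑ g t X ^ (t ^ 2)` -/
def sq1 (g : ℤ → ℤ) : ℂ⟦X⟧ :=
  mk (Function.extend (fun j : ℕ => j ^ 2) (fun j => (g j + g (-j) : ℂ)) 0) - C (g 0 : ℂ)

theorem sq_inj : Function.Injective fun j : ℕ => j ^ 2 := Nat.pow_left_injective two_ne_zero

theorem sq1_hs {g : ℤ → ℤ} {S : ℂ} (h : HasSum (fun t : ℤ => g t * ee (t ^ 2 * τ / M)) S) :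
    HasSum (fun n => coeff n (sq1 g) * tq M τ ^ n) S := by
  have := ((sq_inj.hasSum_iff (f := fun n => coeff n (mk (Function.extend (fun j : ℕ => j ^ 2)
    (fun j => (g j + g (-j) : ℂ)) 0)) * tq M τ ^ n) fun n hn => by
      rw [coeff_mk, Function.extend_apply' _ _ _ hn, Pi.zero_apply, zero_mul]).1 (by
        simpa [Function.comp_def, sq_inj.extend_apply, tq_pow, add_mul] using h.nat_add_neg)).sub
    (hs_C (g 0) (tq M τ))
  simpa [sq1, sub_mul] using this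

theorem sq1_cf (g : ℤ → ℤ) (n : ℕ) : coeff n (sq1 g) = 0 ∨ ∃ j : ℕ, n = j ^ 2 ∧
    coeff n (sq1 g) = (g j + if j = 0 then 0 else g (-j) : ℤ) := by
  by_cases h : ∃ j : ℕ, j ^ 2 = n
  · obtain ⟨j, rfl⟩ := h
    refine Or.inr ⟨j, rfl, ?_⟩
    rw [sq1, map_sub, coeff_mk, sq_inj.extend_apply, coeff_C]
    by_cases e : j = 0 <;> simp [e]
  · refine Or.inl ?_
    rw [sq1, map_sub, coeff_mk, Function.extend_apply' _ _ _ h, coeff_C, if_neg fun e => h ⟨0, by simp [e]⟩]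
    simp

variable {ν : ℕ} [NeZero ν]

variable (ν) in
/-- unary theta series -/
def th (e : ℕ) (b : Fin (2 * ν)) : ℂ⟦X⟧ :=
  sq1 fun t => if ((2 * ν : ℕ) : ℤ) ∣ t - (b : ℕ) then t ^ e else 0

theorem hsA (e : ℕ) (b : ℤ) {S : ℂ}
    (h : HasSum (fun n : ℤ => (b + 2 * ν * n : ℂ) ^ e * ee ((b + 2 * ν * n) ^ 2 * τ / (4 * ν))) S) :
    HasSum (fun t : ℤ => ((if ((2 * ν : ℕ) : ℤ) ∣ t - b then t ^ e else 0 : ℤ) : ℂ) *
      ee (t ^ 2 * τ / (4 * ν : ℕ))) S := by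
  refine (Function.Injective.hasSum_iff (g := fun n : ℤ => b + (2 * ν : ℕ) * n) (fun m n e =>
    mul_left_cancel₀ (by exact_mod_cast NeZero.ne (2 * ν)) (add_left_cancel e)) fun t ht => ?_).1 ?_
  · rw [if_neg fun ⟨c, e⟩ => ht ⟨c, (sub_eq_iff_eq_add'.1 e).symm⟩, Int.cast_zero, zero_mul]
  · simpa [Function.comp_def] using h

theorem hsJ (b : ℤ) (hτ : 0 < τ.im) :
    HasSum (fun n : ℤ => (b + 2 * ν * n : ℂ) ^ 0 * ee ((b + 2 * ν * n) ^ 2 * τ / (4 * ν)))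
      (ee (b ^ 2 * τ / (4 * ν)) * jacobiTheta₂ (b * τ) (2 * ν * τ)) ∧
    HasSum (fun n : ℤ => (b + 2 * ν * n : ℂ) ^ 1 * ee ((b + 2 * ν * n) ^ 2 * τ / (4 * ν)))
      (ee (b ^ 2 * τ / (4 * ν)) * (b * jacobiTheta₂ (b * τ) (2 * ν * τ) +
        2 * ν / (2 * π * I) * jacobiTheta₂' (b * τ) (2 * ν * τ))) := by
  have h : 0 < (2 * ν * τ).im := by simpa using mul_pos (by exact_mod_cast NeZero.pos (2 * ν)) hτ
  have h0 := N_ne (N := ν)
  have e : ∀ n : ℤ, ee ((b + 2 * ν * n) ^ 2 * τ / (4 * ν)) =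
      ee (b ^ 2 * τ / (4 * ν)) * jacobiTheta₂_term n (b * τ) (2 * ν * τ) := fun n => by
    rw [ee, ee, jacobiTheta₂_term, ← exp_add]
    congr 1
    field_simp
    ring
  refine ⟨by simpa [e] using (hasSum_jacobiTheta₂_term _ h).mul_left _, ?_⟩
  refine (funext fun n => ?_ : _ = fun n : ℤ => (b + 2 * ν * n : ℂ) ^ 1 *
    ee ((b + 2 * ν * n) ^ 2 * τ / (4 * ν))) ▸ (((hasSum_jacobiTheta₂_term _ h).mul_left _).add
    ((hasSum_jacobiTheta₂'_term _ h).mul_left _)).mul_left (ee (b ^ 2 * τ / (4 * ν)))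
  have := two_pi_I_ne_zero
  rw [e, jacobiTheta₂'_term]
  field_simp

theorem th_fam {e : ℕ} (he : e ≤ 1) : Fam (4 * ν) (fun b : Fin (2 * ν) => ee (b ^ 2 / (4 * ν)))
    (fun b b' => ((√(2 * ν : ℝ) : ℝ) : ℂ)⁻¹ * ee (-(b * b') / (2 * ν))) e (th ν e) := by
  have h0 := N_ne (N := ν)
  have p0 : (0 : ℝ) < 2 * ν := by have := NeZero.pos ν; positivity
  have sm : ∀ (b : ℤ) (τ : ℂ), 0 < τ.im → Summable fun t : ℤ => ((if ((2 * ν : ℕ) : ℤ) ∣ t - b then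
      t ^ e else 0 : ℤ) : ℂ) * ee (t ^ 2 * τ / (4 * ν : ℕ)) := fun b τ h => by
    interval_cases e
    exacts [(hsA _ b (hsJ b h).1).summable, (hsA _ b (hsJ b h).2).summable]
  refine ⟨fun b => mem_tq (4 * ν) fun τ h => by
    simpa only [tq_pow, th] using (sq1_hs (sm b τ h).hasSum).summable, fun b => iz_iff.2 fun n => ?_,
    fun b n hn => ?_, fun τ hτ b => ?_⟩
  · exact (sq1_cf _ n).elim (fun h => ⟨0, h.trans Int.cast_zero.symm⟩) fun ⟨j, _, h⟩ => ⟨_, h⟩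
  · obtain ⟨j, rfl, h⟩ := (sq1_cf _ n).resolve_left hn
    have k : ∀ t : ℤ, ((2 * ν : ℕ) : ℤ) ∣ t - (b : ℕ) → ee (t ^ 2 / (4 * ν)) = ee (b ^ 2 / (4 * ν)) := by
      rintro t ⟨c, hc⟩
      refine ee_congr (b * c + ν * c ^ 2) ?_
      rw [sub_eq_iff_eq_add'.1 hc]
      push_cast
      field_simp
      ring
    by_cases h1 : ((2 * ν : ℕ) : ℤ) ∣ j - (b : ℕ)
    · simpa using k _ h1
    by_cases h2 : ((2 * ν : ℕ) : ℤ) ∣ -j - (b : ℕ)
    · simpa using k _ h2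
    exact absurd (h.trans (by simp only [if_neg h1, if_neg h2]; simp)) hn
  have h1 := ne0 hτ
  have hi : 0 < (τ / (2 * ν)).im := by
    rw [show (2 * ν : ℂ) = (2 * ν : ℝ) by simp, div_ofReal_im]
    positivity
  have r : ∑ b' : Fin (2 * ν), ((√(2 * ν : ℝ) : ℝ) : ℂ)⁻¹ * ee (-(b * b') / (2 * ν)) *
      ev (th ν e b') (tq (4 * ν) τ) = ((√(2 * ν : ℝ) : ℝ) : ℂ)⁻¹ *
        ∑' t : ℤ, t ^ e * jacobiTheta₂_term t (-b / (2 * ν)) (τ / (2 * ν)) := by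
    simp only [mul_assoc, ← mul_sum, th, ev, (sq1_hs (sm _ τ hτ).hasSum).tsum_eq]
    simp only [← tsum_mul_left]
    rw [← Summable.tsum_finsetSum fun b' _ => (sm _ τ hτ).mul_left _, tsum_mul_left]
    congr 2
    funext t
    have := sum_ind (ν := 2 * ν) (fun x => ee (x * (-b : ℤ) / (2 * ν : ℕ)) * (t ^ e *
      ee (t ^ 2 * τ / (4 * ν : ℕ)))) (fun _ _ h => by rw [ee_dvd h]) t
    rw [sum_range] at this
    refine Eq.trans (sum_congr rfl fun b' _ => ?_) (this.trans ?_)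
    · split_ifs <;> simp [mul_comm]
    · rw [mul_left_comm, ← ee_add, ee, jacobiTheta₂_term]
      congr 2
      push_cast
      field_simp
      ring
  have s0 := Real.sqrt_pos.2 p0
  have q : (-I * (τ / (2 * ν))) ^ (1 / 2 : ℂ) = hw τ * ((√(2 * ν : ℝ) : ℝ) : ℂ)⁻¹ := by
    rw [show -I * (τ / (2 * ν)) = τ / (2 * ν) / I by rw [div_I]; ring]
    refine (sq_eq_sq_iff_eq_or_eq_neg.1 ((hw_sq).trans ?_)).resolve_right fun e => ?_
    · rw [mul_pow, hw_sq, inv_pow, ← ofReal_pow, Real.sq_sqrt p0.le]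
      push_cast
      ring
    · have := hw_pos hi
      rw [e, ← ofReal_inv, neg_re, mul_comm, re_ofReal_mul] at this
      linarith [mul_pos (inv_pos.2 s0) (hw_pos hτ)]
  have q0 := hw_ne hτ
  have q1 := ofReal_ne_zero.2 s0.ne'
  have a1 : -(b : ℂ) / (2 * ν) / (τ / (2 * ν)) = ((b : ℕ) : ℤ) * (-1 / τ) := by push_cast; field_simp
  have a2 : -1 / (τ / (2 * ν)) = 2 * ν * (-1 / τ) := by field_simp
  have a3 : cexp (-π * I * (-(b : ℂ) / (2 * ν)) ^ 2 / (τ / (2 * ν))) =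
      ee (((b : ℕ) : ℤ) ^ 2 * (-1 / τ) / (4 * ν)) := by
    rw [ee]
    congr 1
    push_cast
    field_simp
    ring
  rw [r, mul_assoc, ← mul_assoc (hw τ), th, ev]
  interval_cases e
  · rw [(sq1_hs (hsA _ _ (hsJ _ (im_S hτ)).1)).tsum_eq]
    simp only [pow_zero, one_mul]
    rw [(hasSum_jacobiTheta₂_term _ hi).tsum_eq, jacobiTheta₂_functional_equation (-b / (2 * ν)), q,
      a1, a2, a3]
    field_simp
  · have := two_pi_I_ne_zero
    have e2 : ∑' t : ℤ, (t : ℂ) ^ 1 * jacobiTheta₂_term t (-b / (2 * ν)) (τ / (2 * ν)) =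
        jacobiTheta₂' (-b / (2 * ν)) (τ / (2 * ν)) / (2 * π * I) := by
      rw [jacobiTheta₂', ← tsum_div_const]
      exact tsum_congr fun t => by rw [jacobiTheta₂'_term]; field_simp
    rw [(sq1_hs (hsA _ _ (hsJ _ (im_S hτ)).2)).tsum_eq, e2,
      jacobiTheta₂'_functional_equation (-b / (2 * ν)), q, a1, a2, a3]
    push_cast
    field_simp
    ring

end Vale.Agent.P004Z.Du
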